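import Vale.Agent.P354UR.Mx

/-!
Existence, uniqueness and naturality of the rolling.
-/

set_option maxSynthPendingDepth 3

open scoped ContDiff
open Set Filter Topology

namespace Vale.Agent.P354UR

open Vale.Agent.P354n (R4 mink)
open Vale.Agent.P354R (Met Pull)
open Vale.Agent.P354RC
open Vale.Agent.P354XD (tb rp_tb dh_eq)
open Vale.Agent.P354XE (Tw eT)
open Vale.Agent.P354XU (L4 Fr Rol ROLL RU)

/-- The connection as a bilinear map. -/
noncomputable def GB (h : R4 → B2) (y : R4) : R4 →L[ℝ] L4 :=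
  ∑ i, ∑ j, (cv i).smulRight ((cv j).smulRight (Gm h y (bs i) (bs j)))

/-- The flat metric as a bilinear form. -/
noncomputable def mB : B2 := -(cv 0).smulRight (cv 0) + (cv 1).smulRight (cv 1) +
  (cv 2).smulRight (cv 2) + (cv 3).smulRight (cv 3)

theorem mB_ap (v w : R4) : mB v w = mink v w := by
  simp [mB, cv, mink, P354n.cu, P354n.cv, P354n.c1, P354n.c2]

theorem mink_nd {v : R4} (h : ∀ w, mink v w = 0) : v = 0 := by
  have := h (bs 0)
  have := h (bs 1)
  have := h (bs 2)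
  have := h (bs 3)
  simp_all [bs, mink, P354n.cu, P354n.cv, P354n.c1, P354n.c2, Prod.ext_iff]

theorem inv_of {F : L4} (h : Function.Injective F) : F.IsInvertible :=
  ⟨(LinearMap.linearEquivOfInjective (F : R4 →ₗ[ℝ] R4) h rfl).toContinuousLinearEquiv, rfl⟩

variable {g : Tw} {h : R4 → B2} {D Ω : Set R4} {y p : R4} {c b : R4 → R4} {A E : R4 → L4}

theorem GB_ap (a v : R4) : GB h y a v = Gm h y a v := by
  conv_rhs => rw [← sum_bs a, ← sum_bs v]
  simp only [GB, Fin.sum_univ_four, Gm_add1, Gm_add2, Gm_smul1, Gm_smul2,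
    add_apply, ContinuousLinearMap.smulRight_apply,
    smul_apply, smul_add]
  module

theorem GB_cd (r : Rp g h D) (hy : y ∈ D) : ContDiffAt ℝ ∞ (GB h) y :=
  ContDiffAt.sum fun _ _ => ContDiffAt.sum fun _ _ => contDiffAt_const.smulRight
    (contDiffAt_const.smulRight (r.gm_cd hy contDiffAt_const contDiffAt_const))

/-- The rolling equation. -/
noncomputable def vr (g : Tw) (c : R4 → R4) (A : R4 → L4) (z : R4 × R4 × L4) : R4 × L4 :=
  (z.2.2 (c z.1), z.2.2.comp (A z.1) - (GB (tb g) z.2.1 (z.2.2 (c z.1))).comp z.2.2)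

theorem vr_cd (r : Rp g (tb g) D) {z : R4 × R4 × L4} (hc : ContDiffAt ℝ ∞ c z.1)
    (hA : ContDiffAt ℝ ∞ A z.1) (hz : z.2.1 ∈ D) : ContDiffAt ℝ ∞ (vr g c A) z := by
  have e : ContDiffAt ℝ ∞ (fun z : R4 × R4 × L4 => z.2.2) z := contDiffAt_snd.snd
  have k := e.clm_apply (hc.comp z contDiffAt_fst)
  have G : ContDiffAt ℝ ∞ (fun z : R4 × R4 × L4 => GB (tb g) z.2.1) z :=
    ContDiffAt.comp (g := GB (tb g)) z (GB_cd r hz) contDiffAt_snd.fst
  exact k.prodMk ((e.clm_comp (hA.comp z contDiffAt_fst)).sub ((G.clm_apply k).clm_comp e))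

theorem vr_iff (hb : DifferentiableAt ℝ b p) (hE : DifferentiableAt ℝ E p) :
    fderiv ℝ (fun p => (b p, E p)) p eT = vr g c A (p, b p, E p) ↔
      fderiv ℝ b p eT = E p (c p) ∧ ∀ v,
        fderiv ℝ E p eT v + Gm (tb g) (b p) (E p (c p)) (E p v) = E p (A p v) := by
  rw [hb.fderiv_prodMk hE, Prod.ext_iff, ContinuousLinearMap.ext_iff]
  simp only [vr, ContinuousLinearMap.prod_apply, sub_apply,
    ContinuousLinearMap.comp_apply, GB_ap, eq_sub_iff_add_eq]

theorem Fr.atb (F : Fr g D Ω b E) (m : p ∈ Ω) : ContDiffAt ℝ ∞ b p :=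
  F.sb.contDiffAt (F.isOpen.mem_nhds m)
theorem Fr.atE (F : Fr g D Ω b E) (m : p ∈ Ω) : ContDiffAt ℝ ∞ E p :=
  F.sE.contDiffAt (F.isOpen.mem_nhds m)

theorem Fr.inv (F : Fr g D Ω b E) (M : Met g D) (m : p ∈ Ω) : (E p).IsInvertible :=
  inv_of ((injective_iff_map_eq_zero _).2 fun v e => mink_nd fun w => by
    rw [← F.on p m, e, M.symm _ (F.maps m), (M.lin _ (F.maps m) _).map_zero])

theorem Rol.cd (R : Rol g D Ω c A b E) (r : Rp g (tb g) D) (m : p ∈ Ω) :
    ContDiffAt ℝ ∞ c p ∧ ContDiffAt ℝ ∞ A p := by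
  have i := (Fr.inv R.toFr r.met m).contDiffAt_map_inverse.comp p (Fr.atE R.toFr m)
  have k := (at_fd (Fr.atb R.toFr m)).clm_apply (contDiffAt_const (c := eT))
  refine ⟨(i.clm_apply k).congr_of_eventuallyEq ?_, (i.clm_comp
    (((at_fd (Fr.atE R.toFr m)).clm_apply (contDiffAt_const (c := eT))).add
      ((((GB_cd r (R.maps m)).comp p (Fr.atb R.toFr m)).clm_apply k).clm_comp
        (Fr.atE R.toFr m)))).congr_of_eventuallyEq ?_⟩ <;>
    filter_upwards [R.isOpen.mem_nhds m] with q a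
  · rw [R.db q a]
    exact ((Fr.inv R.toFr r.met a).inverse_apply_self _).symm
  · refine ContinuousLinearMap.ext fun v => ?_
    rw [← (Fr.inv R.toFr r.met a).inverse_apply_self (A q v), ← R.dE q a, ← R.db q a, ← GB_ap]
    rfl

/-- The derivative of the components of the metric in a frame. -/
theorem fd_fr (r : Rp g h D) (hb : ContDiffAt ℝ ∞ b p) (hE : ContDiffAt ℝ ∞ E p) (m : b p ∈ D)
    (u v w : R4) : fderiv ℝ (fun q => (h (b q)).bilinearComp (E q) (E q)) p u v w =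
      h (b p) (fderiv ℝ E p u v + Gm h (b p) (fderiv ℝ b p u) (E p v)) (E p w) +
      h (b p) (E p v) (fderiv ℝ E p u w + Gm h (b p) (fderiv ℝ b p u) (E p w)) ∧
    ContDiffAt ℝ ∞ (fun q => (h (b q)).bilinearComp (E q) (E q)) p := by
  have k1 : ContDiffAt ℝ ∞ (fun z => h (b z)) p := (r.at m).comp p hb
  have k : ContDiffAt ℝ ∞ (fun q => (h (b q)).bilinearComp (E q) (E q)) p :=
    at_flip ((at_flip (k1.clm_comp hE)).clm_comp hE)
  have k2 := fun v => hE.clm_apply (contDiffAt_const (c := v))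
  refine ⟨?_, k⟩
  rw [← fd_ap0 k, ← fd_ap0 (k.clm_apply contDiffAt_const)]
  simp only [ContinuousLinearMap.bilinearComp_apply]
  rw [fd_ap (k1.clm_apply (k2 v)) (k2 w), fd_ap k1 (k2 v), fd_comp (r.at m) hb, fd_ap0 hE,
    fd_ap0 hE, add_apply, dh_eq r m]
  simp only [map_add, add_apply]
  ring

/-- **ROLL.** -/
theorem roll : ROLL := by
  intro g D U c A O b0 E0 hD M hU st hc hA an hO hb hE h0
  have r := rp_tb hD M
  obtain ⟨Ω, Φ, F, z, ex⟩ := ex_max (U := U ×ˢ D ×ˢ univ) (v := vr g c A) (O := O)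
    (x0 := fun x => (b0 x, E0 x)) (hU.prod (hD.prod isOpen_univ))
    (fun z m => (vr_cd r (hc.contDiffAt (hU.mem_nhds m.1)) (hA.contDiffAt (hU.mem_nhds m.1))
      m.2.1).contDiffWithinAt) hO (hb.prodMk hE) fun x m => ⟨(h0 x m).1, (h0 x m).2.1, trivial⟩
  have sb : ∀ p ∈ Ω, ContDiffAt ℝ ∞ (fun p => (Φ p).1) p := fun p m =>
    (F.sm.contDiffAt (F.op.mem_nhds m)).fst
  have sE : ∀ p ∈ Ω, ContDiffAt ℝ ∞ (fun p => (Φ p).2) p := fun p m =>
    (F.sm.contDiffAt (F.op.mem_nhds m)).snd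
  have od := fun p m => (vr_iff (at_df (sb p m)) (at_df (sE p m))).1 (F.ode p m)
  have mD := fun p m => (F.mem p m).2.2.1
  have fr := fun p m => fd_fr r (sb p m) (sE p m) (mD p m)
  refine ⟨Ω, fun p => (Φ p).1, fun p => (Φ p).2, ⟨⟨F.op, F.sm.fst, F.sm.snd, mD, fun p m v w => ?_⟩,
    fun p m => (od p m).1, fun p m => (od p m).2⟩, fun p m => (F.mem p m).2.1, F.star,
    fun p m => (F.mem p m).1, fun x m => ⟨z x m, congrArg Prod.fst (F.init x (z x m)),
      congrArg Prod.snd (F.init x (z x m))⟩,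
    fun p m a K hK cK C k => ex p a (((fun s => (s, p.2)) '' uIcc 0 p.1) ×ˢ K ×ˢ Metric.closedBall 0 C)
      (prod_mono (by rintro _ ⟨s, a, rfl⟩; exact st p m s a) (prod_mono hK (subset_univ _)))
      ((isCompact_uIcc.image (by fun_prop)).prod (cK.prod (isCompact_closedBall _ _)))
      fun s d e => ⟨⟨s, d, rfl⟩, (k s d e).1, mem_closedBall_zero_iff.2 (k s d e).2⟩⟩
  rw [r.eq _ (mD p m), ← mB_ap]
  refine congrArg (fun B : B2 => B v w) (uq (Φ' := fun _ => mB)
    (Φ := fun q => (tb g (Φ q).1).bilinearComp (Φ q).2 (Φ q).2)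
    (v := fun z => z.2.comp (A z.1) + (z.2.flip.comp (A z.1)).flip) F.op
    (fun q a => ⟨at_df (fr q a 0 0 0).2, ?_⟩) (fun q a => ⟨differentiableAt_const _, ?_⟩)
    (fun q a => ?_) (F.star p m) ?_)
  · refine ContinuousLinearMap.ext fun v => ContinuousLinearMap.ext fun w => ?_
    rw [(fr q a _ _ _).1, (od q a).1, (od q a).2, (od q a).2]
    rfl
  · refine ContinuousLinearMap.ext fun v => ContinuousLinearMap.ext fun w => ?_
    simpa [mB_ap] using (an q (F.mem q a).2.1 v w).symm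
  · have k := fun B : B2 => ((hA.contDiffAt (hU.mem_nhds (F.mem q a).2.1)).of_le (m := 1)
      (by simp)).comp (q, B) contDiffAt_fst
    have fl := (ContinuousLinearMap.flipₗᵢ ℝ R4 R4 ℝ).contDiff (n := 1)
    exact (contDiffAt_snd.clm_comp (k _)).add
      (fl.contDiffAt.comp _ ((fl.contDiffAt.comp _ contDiffAt_snd).clm_comp (k _)))
  · have a := (F.mem p m).1
    refine ContinuousLinearMap.ext fun v => ContinuousLinearMap.ext fun w => ?_
    simp only [F.init _ (z _ a), ContinuousLinearMap.bilinearComp_apply, mB_ap]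
    rw [← r.eq _ (h0 _ a).2.1, (h0 _ a).2.2]

theorem Rol.mono (R : Rol g D Ω c A b E) {Ω' : Set R4} (o : IsOpen Ω') (s : Ω' ⊆ Ω) :
    Rol g D Ω' c A b E :=
  ⟨⟨o, R.sb.mono s, R.sE.mono s, R.maps.mono_left s, fun p m => R.on p (s m)⟩,
    fun p m => R.db p (s m), fun p m => R.dE p (s m)⟩

theorem gm_uq {h' : R4 → B2} (r : Rp g h D) (r' : Rp g h' D) (m : y ∈ D) (a b : R4) :
    Gm h y a b = Gm h' y a b := (r'.conn m).1 ((r.conn m).2 fun _ _ => rfl) a b

/-- **RU.** -/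
theorem ru : RU := by
  refine ⟨fun g D Ω Ω' c A b E b' E' hD M R R' p m e1 e2 => ?_, fun f g' D' g D Ω c A b E P R => ?_⟩
  · have r := rp_tb hD M
    have k : ∀ {Ω b E}, Rol g D Ω c A b E → ∀ q ∈ Ω, DifferentiableAt ℝ (fun p => (b p, E p)) q ∧
        fderiv ℝ (fun p => (b p, E p)) q eT = vr g c A (q, b q, E q) := fun R q a =>
      ⟨(at_df (Fr.atb R.toFr a)).prodMk (at_df (Fr.atE R.toFr a)),
        (vr_iff (at_df (Fr.atb R.toFr a)) (at_df (Fr.atE R.toFr a))).2 ⟨R.db q a, R.dE q a⟩⟩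
    exact Prod.ext_iff.1 (uq (R.isOpen.inter R'.isOpen) (fun q a => k R q a.1)
      (fun q a => k R' q a.2) (fun q a => (vr_cd (z := (q, b q, E q)) r (Rol.cd R r a.1).1
        (Rol.cd R r a.1).2 (R.maps a.1)).of_le (by simp)) m (Prod.ext e1 e2))
  have r := rp_tb P.isOpen P.met
  have r' := rp_pb P r
  have sf := fun p m => p_at P (R.maps (x := p) m)
  have sd : ∀ p ∈ Ω, ContDiffAt ℝ ∞ (fun q => fderiv ℝ f (b q)) p := fun p m =>
    (at_fd (sf p m)).comp p (Fr.atb R.toFr m)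
  refine ⟨⟨R.isOpen, P.smooth.comp R.sb R.maps, fun p m =>
    ((sd p m).clm_comp (Fr.atE R.toFr m)).contDiffWithinAt, P.maps.comp R.maps,
    fun p m v w => (P.eq _ (R.maps m) _ _).symm.trans (R.on p m v w)⟩, fun p m => ?_, fun p m v => ?_⟩
  · exact (fd_comp (sf p m) (Fr.atb R.toFr m) eT).trans (congrArg _ (R.db p m))
  · rw [← fd_ap0 ((sd p m).clm_comp (Fr.atE R.toFr m))]
    refine (congrArg (· + _) (fd_ap (sd p m)
      ((Fr.atE R.toFr m).clm_apply (contDiffAt_const (c := v))) eT)).trans ?_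
    rw [fd_ap0 (Fr.atE R.toFr m), ContinuousLinearMap.comp_apply, ContinuousLinearMap.comp_apply,
      ContinuousLinearMap.comp_apply, ← R.dE p m, map_add,
      gm_uq (rp_tb P.open' r'.met) r' (R.maps m), Gm_pb P r (R.maps m), ← R.db p m,
      ← fd_comp (at_fd (sf p m)) (Fr.atb R.toFr m)]
    simp only [Function.comp_def]
    abel

end Vale.Agent.P354UR
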