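import Vale.Agent.P354XU.Defs
import Vale.Agent.P354HU.Uniq

/-!
The energy estimate on a lens for symmetric hyperbolic inequalities.
-/

open scoped ContDiff
open MeasureTheory Set Filter Topology

namespace Vale.Agent.P354UR

open Vale.Agent.P354n (R4)
open Vale.Agent.P354RC (bs)
open Vale.Agent.P354XE (eT)
open Vale.Agent.P354XU (lens)
open Vale.Agent.P354H (X3 e dt dx)
open Vale.Agent.P354HU

theorem bs_succ (j : Fin 3) : bs j.succ = ((0, e j) : R4) := by fin_cases j <;> rfl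

section
variable {ι : Type} [Fintype ι] {φ : ι → R4 → ℝ}

/-- The energy inequality for a current. -/
theorem cur {J : Fin 4 → R4 → ℝ} {O D : Set R4} {τ L : ℝ} (hO : IsOpen O) (hD : IsCompact D)
    (hDO : D ⊆ O) (hl : lens φ τ ⊆ D) (hφ : ∀ i, ContDiff ℝ 1 (φ i))
    (hJ : ∀ μ, ContDiffOn ℝ 1 (J μ) O)
    (H : ∀ p ∈ lens φ τ, ∑ μ, fderiv ℝ (J μ) p (bs μ) ≤ L * J 0 p ∧
      ∀ i, 0 ≤ ∑ μ, fderiv ℝ (φ i) p (bs μ) * J μ p) :
    ∃ f : R4 → ℝ, Continuous f ∧ HasCompactSupport f ∧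
      (∀ p : R4, p.1 ∈ Icc 0 τ → f p = wt φ p * J 0 p) ∧
      ∀ t ∈ Icc 0 τ, Real.exp (-L * t) * ∫ x, f (t, x) ≤ ∫ x, f (0, x) := by
  obtain ⟨η, e1, e2, e3, -, e5⟩ := cutoff hO hD hDO
  have c := fun μ => cut_mul hO e1 e3 (hJ μ)
  have cw := wt_cd hφ
  refine ⟨fun q => wt φ q * (η q * J 0 q), (cw.mul (c 0)).continuous, e2.mul_right.mul_left,
    fun p hp => ?_, fun t ht => ?_⟩
  · by_cases z : wt φ p = 0
    · simp [z]
    · simp [(e5 p (hl ⟨hp, wt_ne.1 z⟩)).self_of_nhds]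
  · have s : ∀ μ, HasCompactSupport fun q => wt φ q * (η q * J μ q) := fun μ =>
      e2.mul_right.mul_left
    have en := energy (L := L) (g := fun j q => -(wt φ q * (η q * J j.succ q))) (cw.mul (c 0))
      (s 0) (fun j => (cw.mul (c _)).neg) (fun j => (s j.succ).neg) (fun q hq => ?_) ht
    · simpa using en
    have dw := cw.differentiable one_ne_zero q
    unfold dt dx
    simp only [fderiv_fun_neg, fun μ => fderiv_fun_mul dw ((c μ).differentiable one_ne_zero q)]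
    by_cases z : wt φ q = 0
    · have : IsLocalMin (wt φ) q := Eventually.of_forall fun r => z ▸ wt_nonneg r
      simp [z, this.fderiv_eq_zero]
    have hq' : q ∈ lens φ τ := ⟨hq, wt_ne.1 z⟩
    obtain ⟨a1, a2⟩ := H q hq'
    have f1 : ∀ F : R4 → ℝ, fderiv ℝ (fun p => η p * F p) q = fderiv ℝ F q := fun F =>
      EventuallyEq.fderiv_eq (by filter_upwards [e5 q (hl hq')] with r hr using by rw [hr, one_mul])
    have b1 := wt_fd hφ (p := q) (v := ∑ μ, J μ q • bs μ) fun i => by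
      simpa only [map_sum, map_smul, smul_eq_mul, mul_comm] using a2 i
    have b2 := mul_le_mul_of_nonneg_left a1 (wt_nonneg (φ := φ) q)
    simp only [map_sum, map_smul, smul_eq_mul] at b1
    rw [Fin.sum_univ_succ] at b1 b2
    simp only [bs_succ, show bs 0 = ((1, 0) : R4) from rfl] at b1 b2
    simp only [f1, (e5 q (hl hq')).self_of_nhds, one_mul, add_apply, neg_apply, smul_apply,
      smul_eq_mul,
      Finset.sum_neg_distrib, Finset.sum_add_distrib, ← Finset.mul_sum]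
    linarith

/-- The shifted barriers. -/
def sft (φ : ι → R4 → ℝ) (s : ℝ) (i : ι) (p : R4) : ℝ := φ i p + s

omit [Fintype ι] in
theorem lens_mono {s s' τ τ' : ℝ} (hs : s ≤ s') (hτ : τ' ≤ τ) :
    lens (sft φ s') τ' ⊆ lens (sft φ s) τ := fun _ hp =>
  ⟨⟨hp.1.1, hp.1.2.trans hτ⟩, fun i => (add_le_add_right hs _).trans_lt (hp.2 i)⟩

omit [Fintype ι] in
theorem sft_zero : sft φ 0 = φ := by ext; simp [sft]

variable {V : Type} [NormedAddCommGroup V] [NormedSpace ℝ V]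

/-- A symmetric hyperbolic operator for which the lens of φ is a domain of dependence. -/
structure HY (φ : ι → R4 → ℝ) (A : Fin 4 → R4 → V →L[ℝ] V →L[ℝ] ℝ) (O K : Set R4) (T : ℝ) :
    Prop where
  opn : IsOpen O
  cpt : IsCompact K
  sub : K ⊆ O
  len : lens φ T ⊆ K
  sp : ∀ i, ContDiff ℝ 1 (φ i)
  sA : ∀ μ, ContDiffOn ℝ 1 (A μ) O
  sy : ∀ μ, ∀ p ∈ K, ∀ v w, A μ p v w = A μ p w v
  pos : ∀ p ∈ K, ∀ z ≠ 0, 0 < A 0 p z z
  dt : ∀ p ∈ K, ∀ i, 0 ≤ fderiv ℝ (φ i) p eT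
  cau : ∀ p ∈ K, ∀ i z, 0 ≤ ∑ μ, fderiv ℝ (φ i) p (bs μ) * A μ p z z

variable {A : Fin 4 → R4 → V →L[ℝ] V →L[ℝ] ℝ} {O K : Set R4} {T : ℝ}

theorem quad_le (a : V →L[ℝ] V →L[ℝ] ℝ) (z : V) : a z z ≤ ‖a‖ * ‖z‖ ^ 2 := by
  have := (le_abs_self _).trans (a.le_opNorm₂ z z)
  linarith

omit [Fintype ι] in
theorem HY.cst [FiniteDimensional ℝ V] (h : HY φ A O K T) : ∃ c > 0, ∃ M ≥ 0, ∀ p ∈ K, ∀ z,
    c * ‖z‖ ^ 2 ≤ A 0 p z z ∧ A 0 p z z ≤ M * ‖z‖ ^ 2 ∧
      ∑ μ, fderiv ℝ (A μ) p (bs μ) z z ≤ M * ‖z‖ ^ 2 := by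
  have a0 : ContinuousOn (A 0) K := (h.sA 0).continuousOn.mono h.sub
  have n0 : ∀ {f : R4 → V →L[ℝ] V →L[ℝ] ℝ}, ContinuousOn f K → ContinuousOn (fun p => ‖f p‖) K :=
    fun hf => ContinuousOn.norm (E := V →L[ℝ] V →L[ℝ] ℝ) hf
  obtain ⟨M, hM⟩ := h.cpt.exists_bound_of_continuousOn
    (f := fun p => ‖A 0 p‖ + ∑ μ, ‖fderiv ℝ (A μ) p (bs μ)‖) ((n0 a0).fun_add
      (continuousOn_finsetSum _ fun j _ => n0 ((((h.sA j).continuousOn_fderiv_of_isOpen h.opn
        le_rfl).mono h.sub).clm_apply continuousOn_const)))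
  obtain ⟨c, c0, hc⟩ := (h.cpt.prod (isCompact_sphere (0 : V) 1)).exists_forall_le'
    (f := fun q => A 0 q.1 q.2 q.2) (a := 0)
    (((a0.comp continuousOn_fst fun q hq => hq.1).clm_apply continuousOn_snd).clm_apply
      continuousOn_snd) fun q hq => h.pos _ hq.1 _ fun z => by simpa [z] using hq.2
  refine ⟨c, c0, |M|, abs_nonneg _, fun p hp z => ?_⟩
  have m := ((le_abs_self _).trans (hM p hp)).trans (le_abs_self M)
  have n : 0 ≤ ∑ μ, ‖fderiv ℝ (A μ) p (bs μ)‖ := Finset.sum_nonneg fun _ _ =>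
    ContinuousLinearMap.opNorm_nonneg _
  refine ⟨?_, (quad_le _ z).trans (by gcongr; linarith), ?_⟩
  · rcases eq_or_ne z 0 with rfl | z0
    · simp
    have z1 := norm_pos_iff.2 z0
    have := hc (p, ‖z‖⁻¹ • z) ⟨hp, by simp [norm_smul, z1.ne']⟩
    simp only [map_smul, smul_apply, smul_eq_mul] at this
    calc c * ‖z‖ ^ 2 ≤ ‖z‖⁻¹ * (‖z‖⁻¹ * A 0 p z z) * ‖z‖ ^ 2 := by gcongr
      _ = _ := by field_simp
  · refine (Finset.sum_le_sum fun μ _ => quad_le _ z).trans ?_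
    rw [← Finset.sum_mul]
    gcongr
    linarith [norm_nonneg (A 0 p)]

/-- The closed lens. -/
def clen (φ : ι → R4 → ℝ) (K : Set R4) (τ : ℝ) : Set R4 :=
  {p ∈ K | p.1 ∈ Icc 0 τ ∧ ∀ i, φ i p ≤ 0}

omit [Fintype ι] in
theorem HY.clen (h : HY φ A O K T) (s τ : ℝ) : IsCompact (clen (sft φ s) K τ) := by
  refine h.cpt.inter_right ((isClosed_Icc.preimage continuous_fst).inter ?_)
  show IsClosed {p | ∀ i, sft φ s i p ≤ 0}
  rw [ofPred_forall]
  exact isClosed_iInter fun i => isClosed_le ((h.sp i).continuous.add continuous_const)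
    continuous_const

/-- The energy estimate with a source. -/
theorem HY.en [FiniteDimensional ℝ V] (h : HY φ A O K T) (L : ℝ) : ∃ L' ≥ 0, ∀ s ≥ 0, ∀ τ ≤ T,
    ∀ (Z : R4 → V) (O' : Set R4) (δ : ℝ), IsOpen O' → P354UR.clen (sft φ s) K τ ⊆ O' →
      ContDiffOn ℝ 1 Z O' → (∀ p ∈ lens (sft φ s) τ,
        ∑ μ, A μ p (fderiv ℝ Z p (bs μ)) (Z p) ≤ L * ‖Z p‖ ^ 2 + δ ^ 2) →
      ∃ f : R4 → ℝ, Continuous f ∧ HasCompactSupport f ∧
        (∀ p : R4, p.1 ∈ Icc 0 τ → f p = wt (sft φ s) p * (A 0 p (Z p) (Z p) + δ ^ 2)) ∧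
        ∀ t ∈ Icc 0 τ, Real.exp (-L' * t) * ∫ x, f (t, x) ≤ ∫ x, f (0, x) := by
  obtain ⟨c, c0, M, M0, hc⟩ := h.cst
  refine ⟨(M + 2 * |L|) / c + 2, by positivity, fun s s0 τ hτ Z O' δ o1 o2 hZ H => ?_⟩
  have k : lens (sft φ s) τ ⊆ K := (lens_mono s0 hτ).trans (by rw [sft_zero]; exact h.len)
  have cA : ∀ μ, ContDiffOn ℝ 1 (fun p => A μ p (Z p) (Z p)) (O ∩ O') := fun μ =>
    (((h.sA μ).mono inter_subset_left).clm_apply (hZ.mono inter_subset_right)).clm_apply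
      (hZ.mono inter_subset_right)
  have := cur (φ := sft φ s) (J := fun μ p => A μ p (Z p) (Z p) + δ ^ 2 * (bs μ).1)
    (L := (M + 2 * |L|) / c + 2) (h.opn.inter o1) (h.clen s τ) (fun p hp => ⟨h.sub hp.1, o2 hp⟩)
    (fun p hp => ⟨k hp, hp.1, fun i => (hp.2 i).le⟩) (fun i => (h.sp i).add contDiff_const)
    (fun μ => (cA μ).add contDiffOn_const) fun p hp => ⟨?_, fun i => ?_⟩
  · simpa only [show (bs 0).1 = 1 from rfl, mul_one] using this
  · have dZ := (hZ.contDiffAt (o1.mem_nhds (o2 ⟨k hp, hp.1, fun i => (hp.2 i).le⟩))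
      ).differentiableAt one_ne_zero
    have dA := fun μ => ((h.sA μ).contDiffAt (h.opn.mem_nhds (h.sub (k hp)))).differentiableAt
      one_ne_zero
    have b : ∀ μ, fderiv ℝ (fun p => A μ p (Z p) (Z p) + δ ^ 2 * (bs μ).1) p (bs μ) =
        fderiv ℝ (A μ) p (bs μ) (Z p) (Z p) + 2 * A μ p (fderiv ℝ Z p (bs μ)) (Z p) := fun μ => by
      rw [fderiv_add_const, fderiv_clm_apply ((dA μ).clm_apply dZ) dZ, fderiv_clm_apply (dA μ) dZ]
      simp only [add_apply, ContinuousLinearMap.comp_apply, ContinuousLinearMap.flip_apply]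
      rw [h.sy μ p (k hp) (Z p)]
      ring
    obtain ⟨a1, -, a3⟩ := hc p (k hp) (Z p)
    have a4 := H p hp
    have a5 : (M + 2 * |L|) * ‖Z p‖ ^ 2 ≤ (M + 2 * |L|) / c * A 0 p (Z p) (Z p) := by
      rw [div_mul_eq_mul_div, le_div_iff₀ c0, mul_assoc, mul_comm _ c]
      gcongr
    have a6 : 0 ≤ (M + 2 * |L|) / c * δ ^ 2 := by positivity
    have a7 : L * ‖Z p‖ ^ 2 ≤ |L| * ‖Z p‖ ^ 2 := by gcongr; exact le_abs_self L
    have a8 : 0 ≤ c * ‖Z p‖ ^ 2 := by positivity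
    simp only [b, Finset.sum_add_distrib, ← Finset.mul_sum, show (bs 0).1 = 1 from rfl]
    linarith
  · have a1 := h.cau p (k hp) i (Z p)
    have a2 := mul_nonneg (h.dt p (k hp) i) (sq_nonneg δ)
    have a3 : fderiv ℝ (sft φ s i) p = fderiv ℝ (φ i) p := fderiv_add_const _
    simp only [a3, mul_add, Finset.sum_add_distrib]
    refine add_nonneg a1 (a2.trans_eq ?_)
    simp [Fin.sum_univ_four, bs, eT]
    left; rfl

omit [Fintype ι] in
theorem clen_sub {s s' τ : ℝ} (hs : s < s') : clen (sft φ s') K τ ⊆ lens (sft φ s) τ :=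
  fun _ hp => ⟨hp.2.1, fun i => (add_lt_add_right hs _).trans_le (hp.2.2 i)⟩

/-- **Uniqueness on a lens.** -/
theorem HY.lin0 [FiniteDimensional ℝ V] (h : HY φ A O K T) {Z : R4 → V} {O' : Set R4}
    (o1 : IsOpen O') (o2 : lens φ T ⊆ O') (hZ : ContDiffOn ℝ 1 Z O')
    (H : ∀ D ⊆ lens φ T, IsCompact D → ∃ L, ∀ p ∈ D,
      ∑ μ, A μ p (fderiv ℝ Z p (bs μ)) (Z p) ≤ L * ‖Z p‖ ^ 2)
    (h0 : ∀ p ∈ lens φ 0, Z p = 0) : ∀ p ∈ lens φ T, Z p = 0 := by
  intro p hp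
  obtain ⟨s, hs, s0⟩ := ((eventually_all.2 fun i => ((continuous_const.add continuous_id
    ).continuousAt (x := (0 : ℝ))).eventually (gt_mem_nhds (show φ i p + 0 < 0 by
      simpa using hp.2 i))).filter_mono nhdsWithin_le_nhds |>.and
        (self_mem_nhdsWithin (s := Ioi 0))).exists
  have k : P354UR.clen (sft φ s) K T ⊆ lens φ T := (clen_sub s0).trans (by rw [sft_zero])
  obtain ⟨L, hL⟩ := H _ k (h.clen s T)
  obtain ⟨L', -, h'⟩ := h.en L
  have k2 : lens (sft φ s) T ⊆ lens φ T := (lens_mono (le_of_lt s0) le_rfl).trans (by rw [sft_zero])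
  obtain ⟨f, f1, f2, f3, f4⟩ := h' s (le_of_lt s0) T le_rfl Z O' 0 o1 (k.trans o2) hZ
    fun q hq => by simpa using hL q ⟨h.len (k2 hq), hq.1, fun i => (hq.2 i).le⟩
  have z : ∀ x, f (0, x) = 0 := fun x => by
    have t : ((0, x) : R4).1 ∈ Icc 0 T := ⟨le_rfl, hp.1.1.trans hp.1.2⟩
    rw [f3 _ t]
    by_cases c : wt (sft φ s) (0, x) = 0
    · rw [c, zero_mul]
    · simp [h0 (0, x) ⟨⟨le_rfl, le_rfl⟩, (k2 ⟨t, wt_ne.1 c⟩).2⟩]
  have en := f4 _ hp.1
  simp only [z, integral_zero] at en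
  have := haar3
  by_contra b
  have a := (f1.comp (Continuous.prodMk_right p.1)
    ).integral_pos_of_hasCompactSupport_nonneg_nonzero (μ := volume) (x := p.2) (cs_sl f2 p.1)
    (fun x => ?_) ?_
  · exact (mul_pos (Real.exp_pos _) a).not_ge en
  · show 0 ≤ f (p.1, x)
    rw [f3 (p.1, x) hp.1]
    by_cases c : wt (sft φ s) (p.1, x) = 0
    · rw [c, zero_mul]
    · obtain ⟨c1, c0, M, -, hc⟩ := h.cst
      have := (hc (p.1, x) (h.len (k2 ⟨hp.1, wt_ne.1 c⟩)) (Z (p.1, x))).1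
      exact mul_nonneg (wt_nonneg _) (add_nonneg (le_trans (by positivity) this) (sq_nonneg _))
  · show f p ≠ 0
    rw [f3 _ hp.1]
    exact mul_ne_zero (wt_ne.2 hs) (by simpa using (h.pos p (h.len hp) _ b).ne')

/-- **Stability on a lens.** -/
theorem HY.lin [FiniteDimensional ℝ V] (h : HY φ A O K T) (L B : ℝ) {e1 ε : ℝ} (he : 0 < e1)
    (hε : 0 < ε) : ∃ δ > 0, ∀ s ≥ 0, ∀ τ ≤ T, ∀ (Z : R4 → V) (O' : Set R4), IsOpen O' →
      lens (sft φ s) τ ⊆ O' → ContDiffOn ℝ 1 Z O' → (∀ p ∈ lens (sft φ s) τ,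
        ∑ μ, A μ p (fderiv ℝ Z p (bs μ)) (Z p) ≤ L * ‖Z p‖ ^ 2 + δ ^ 2 ∧ ‖fderiv ℝ Z p‖ ≤ B) →
      (∀ p ∈ lens (sft φ s) 0, ‖Z p‖ ≤ δ) → ∀ p ∈ lens (sft φ (s + e1)) τ, ‖Z p‖ ≤ ε := by
  have := haar3
  obtain ⟨c, c0, M, M0, hc⟩ := h.cst
  obtain ⟨L', L0, h'⟩ := h.en L
  have u : ∀ᶠ q in uniformity R4, ∀ i, q.1 ∈ K → dist (φ i q.1) (φ i q.2) < e1 / 3 :=
    eventually_all.2 fun i => h.cpt.uniformContinuousAt_of_continuousAt (φ i)
      (fun a _ => (h.sp i).continuous.continuousAt) (Metric.dist_mem_uniformity (by positivity))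
  obtain ⟨r, r0, hr⟩ := Metric.mem_uniformity_dist.1 u
  set ρ := min (r / 2) (ε / (2 * (|B| + 1))) with hρ
  have ρ0 : 0 < ρ := by positivity
  set w := expNegInvGlue (e1 / 3) ^ Fintype.card ι with hw
  have w0 : 0 < w := pow_pos (expNegInvGlue.pos_of_pos (by positivity)) _
  set v := (volume (Metric.closedBall (0 : X3) ρ)).toReal with hv
  have v0 : 0 < v := ENNReal.toReal_pos (Metric.measure_closedBall_pos _ _ ρ0).ne'
    measure_closedBall_lt_top.ne
  have cw := fun s => (wt_cd (φ := sft φ s) fun i => (h.sp i).add contDiff_const).continuous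
  obtain ⟨W, hW⟩ := h.cpt.exists_bound_of_continuousOn (cw 0).continuousOn
  have hS := h.cpt.image continuous_snd
  set m := Real.exp (-L' * |T|) * (w * (c * (ε / 2) ^ 2) * v) with hm
  have m0 : 0 < m := by positivity
  set N := |W| * (M + 1) * (volume (Prod.snd '' K)).toReal with hN
  have N0 : 0 ≤ N := by positivity
  refine ⟨min 1 (m / (N + 1)), by positivity, fun s s0 τ hτ Z O' o1 o2 hZ H h0 p hp => ?_⟩
  set δ := min 1 (m / (N + 1)) with hδ
  have δ0 : 0 < δ := by positivity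
  have s1 : s < s + e1 / 3 := by linarith
  have k : lens (sft φ s) τ ⊆ K := (lens_mono s0 hτ).trans (by rw [sft_zero]; exact h.len)
  have k1 := lens_mono (φ := φ) s1.le (le_refl τ)
  obtain ⟨f, f1, f2, f3, f4⟩ := h' _ (s0.trans s1.le) τ hτ Z O' δ o1 ((clen_sub s1).trans o2) hZ
    fun q hq => (H q (k1 hq)).1
  have up : ∫ x, f (0, x) ≤ N * δ ^ 2 := by
    have t : ∀ x, ((0, x) : R4).1 ∈ Icc 0 τ := fun x => ⟨le_rfl, hp.1.1.trans hp.1.2⟩
    refine (integral_mono (int_sl f1 f2 0) ((integrable_indicator_iff hS.measurableSet).2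
      (integrableOn_const (C := |W| * (M + 1) * δ ^ 2) hS.measure_lt_top.ne)) fun x => ?_).trans_eq ?_
    · show f (0, x) ≤ _
      rw [f3 _ (t x)]
      by_cases z : wt (sft φ (s + e1 / 3)) (0, x) = 0
      · rw [z, zero_mul]
        exact indicator_nonneg (fun _ _ => by positivity) _
      have q := k1 ⟨t x, wt_ne.1 z⟩
      rw [indicator_of_mem (show x ∈ Prod.snd '' K from ⟨_, k q, rfl⟩), mul_assoc]
      have a1 : wt (sft φ (s + e1 / 3)) (0, x) ≤ wt (sft φ 0) (0, x) :=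
        Finset.prod_le_prod (fun _ _ => expNegInvGlue.nonneg _) fun i _ =>
          expNegInvGlue.monotone (by simp only [sft]; linarith)
      have a2 := (hc _ (k q) (Z (0, x))).2.1
      have a3 : M * ‖Z (0, x)‖ ^ 2 ≤ M * δ ^ 2 := by
        gcongr; exact h0 _ ⟨⟨le_rfl, le_rfl⟩, q.2⟩
      have a4 := (hc _ (k q) (Z (0, x))).1
      refine mul_le_mul (a1.trans (((le_abs_self _).trans (hW _ (k q))).trans (le_abs_self W)))
        (by linarith) (add_nonneg (le_trans (by positivity) a4) (sq_nonneg _)) (abs_nonneg _)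
    · rw [integral_indicator hS.measurableSet, setIntegral_const, hN, smul_eq_mul, Measure.real]
      ring
  by_contra! b
  have pk : p ∈ K := k (lens_mono (by linarith) le_rfl hp)
  have bl : ∀ x ∈ Metric.closedBall p.2 ρ, ∀ i, φ i (p.1, x) + s < -(2 * e1 / 3) := fun x hx i => by
    have a1 : dist p (p.1, x) < r := by
      rw [Prod.dist_eq, dist_self, dist_comm, max_eq_right dist_nonneg]
      exact (Metric.mem_closedBall.1 hx).trans_lt ((min_le_left _ _).trans_lt (half_lt_self r0))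
    have a2 := abs_lt.1 (show |φ i p - φ i (p.1, x)| < e1 / 3 from hr a1 i pk)
    have a3 : φ i p + (s + e1) < 0 := hp.2 i
    linarith
  have ml : ∀ x ∈ Metric.closedBall p.2 ρ, ((p.1, x) : R4) ∈ lens (sft φ s) τ := fun x hx =>
    ⟨hp.1, fun i => (bl x hx i).trans (by linarith)⟩
  have lz : ∀ x ∈ Metric.closedBall p.2 ρ, ε / 2 ≤ ‖Z (p.1, x)‖ := fun x hx => by
    have a1 := ((convex_singleton p.1).prod (convex_closedBall p.2 ρ)
      ).norm_image_sub_le_of_norm_fderiv_le (𝕜 := ℝ) (f := Z) (C := |B| + 1) (x := (p.1, x)) (y := p)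
      (fun q hq => (hZ.contDiffAt (o1.mem_nhds (o2 (by
        have := ml _ hq.2; rwa [← hq.1] at this)))).differentiableAt one_ne_zero)
      (fun q hq => ((H q (by have := ml _ hq.2; rwa [← hq.1] at this)).2.trans
        (le_abs_self B)).trans (by linarith)) ⟨rfl, hx⟩ ⟨rfl, Metric.mem_closedBall_self ρ0.le⟩
    have a2 : ‖p - (p.1, x)‖ ≤ ε / (2 * (|B| + 1)) := by
      rw [← dist_eq_norm, Prod.dist_eq, dist_self, dist_comm, max_eq_right dist_nonneg]
      exact (Metric.mem_closedBall.1 hx).trans (min_le_right _ _)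
    have a3 : (|B| + 1) * ‖p - (p.1, x)‖ ≤ ε / 2 := by
      refine (mul_le_mul_of_nonneg_left a2 (by positivity)).trans_eq ?_
      field_simp
    have := norm_sub_norm_le (Z p) (Z (p.1, x))
    linarith
  have lo : w * (c * (ε / 2) ^ 2) * v ≤ ∫ x, f (p.1, x) := by
    refine le_trans (le_of_eq ?_) (integral_mono ((integrable_indicator_iff
      (measurableSet_closedBall (x := p.2) (ε := ρ))).2 (integrableOn_const
        (C := w * (c * (ε / 2) ^ 2)) measure_closedBall_lt_top.ne)) (int_sl f1 f2 p.1) fun x => ?_)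
    · rw [integral_indicator measurableSet_closedBall, setIntegral_const, smul_eq_mul, Measure.real,
        Measure.addHaar_closedBall_center, mul_comm]
    show _ ≤ f (p.1, x)
    rw [f3 (p.1, x) hp.1]
    by_cases hx : x ∈ Metric.closedBall p.2 ρ
    · rw [indicator_of_mem hx]
      refine mul_le_mul ?_ ?_ (by positivity) (wt_nonneg _)
      · rw [hw, ← Finset.card_univ, ← Finset.prod_const]
        exact Finset.prod_le_prod (fun _ _ => expNegInvGlue.nonneg _) fun i _ =>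
          expNegInvGlue.monotone (by have := bl x hx i; simp only [sft]; linarith)
      · have a1 := (hc _ (k (ml x hx)) (Z (p.1, x))).1
        have a2 : c * (ε / 2) ^ 2 ≤ c * ‖Z (p.1, x)‖ ^ 2 := by gcongr; exact lz x hx
        linarith [sq_nonneg δ]
    · rw [indicator_of_notMem hx]
      by_cases z : wt (sft φ (s + e1 / 3)) (p.1, x) = 0
      · rw [z, zero_mul]
      · have := (hc (p.1, x) (k (k1 ⟨hp.1, wt_ne.1 z⟩)) (Z (p.1, x))).1
        exact mul_nonneg (wt_nonneg _) (add_nonneg (le_trans (by positivity) this) (sq_nonneg _))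
  have a1 : m ≤ N * δ ^ 2 := by
    refine le_trans (mul_le_mul (Real.exp_le_exp.2 ?_) lo (by positivity) (Real.exp_pos _).le)
      ((f4 _ hp.1).trans up)
    have := (hp.1.2.trans hτ).trans (le_abs_self T)
    nlinarith
  have a2 : δ * (N + 1) ≤ m := (le_div_iff₀ (by positivity)).1 (min_le_right _ _)
  have a3 : N * δ ^ 2 ≤ N * δ := by
    gcongr; nlinarith [min_le_left 1 (m / (N + 1))]
  linarith

end

end Vale.Agent.P354UR
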