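import Vale.Agent.P354UR.Sym
import Vale.Agent.P354YM.Props

/-!
The blocks of EMB: exact statements.
-/

open scoped ContDiff
open Set Filter Topology

namespace Vale.Agent.P354UR

open Vale.Agent.P354n (R4 mink)
open Vale.Agent.P354R (Met Vac)
open Vale.Agent.P354RC (bs)
open Vale.Agent.P354H (X3)
open Vale.Agent.P354I (X Dat)
open Vale.Agent.P354XE
open Vale.Agent.P354XU (L4 Jt Rol Adp IndAt th kk)
open Vale.Agent.P354YM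

/-- The part of t ≥ 0 below the level v. -/
def Ln (φ : R4 → ℝ) (v : ℝ) : Set R4 := {p | 0 ≤ p.1 ∧ φ p < v}

/-- φ is a time function for the frame E along b, with compact sublevel sets in t ≥ 0. -/
structure Dp (φ : R4 → ℝ) (K Ω : Set R4) (b : R4 → R4) (E : R4 → L4) : Prop where
  cpt : IsCompact K
  sub : Ln φ 0 ⊆ K
  dom : K ⊆ Ω
  sm : ContDiff ℝ 1 φ
  inj : ∀ p ∈ K, Function.Injective (fderiv ℝ b p)
  dt : ∀ p ∈ K, 0 < fderiv ℝ φ p eT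
  cau : ∀ p ∈ K, ∀ u, mink (th b E p u) (th b E p u) ≤ 0 → 0 < (th b E p u).1 →
    0 < fderiv ℝ φ p u

/-- Bounds for the metric and its inverse at x. -/
def Mb (N : ℕ) (B c0 : ℝ) (g : Tw) (x : R4) : Prop :=
  Bd N g x B ∧ ∀ v, ∃ w, ‖w‖ ≤ 1 ∧ c0 * ‖v‖ ≤ g x v w

/-- The coframes and the second fundamental forms on the slice are close at x. -/
def Dc (g g' : Tw) (b b' : R4 → R4) (E E' : R4 → L4) (x : X3) (δ : ℝ) : Prop :=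
  ∀ i j : Fin 3,
    Jt 2 (fun z : X3 => th b' E' (0, z) (bs i.succ) - th b E (0, z) (bs i.succ)) x δ ∧
    Jt 2 (fun z : X3 => kk g' b' E' (bs i.succ) (bs j.succ) (0, z) -
      kk g b E (bs i.succ) (bs j.succ) (0, z)) x δ

/-- Cauchy stability in C0, for targets with bounds. -/
def CSL : Prop :=
  ∀ φ g D Ω c A b E K, IsOpen D → Met g D → Vac g D → Rol g D Ω c A b E → Dp φ K Ω b E →
    Adp Ω b E → ∀ B, ∀ c0 > 0, ∀ e1 > 0, ∀ ε > 0, ∃ δ > 0, ∀ v ≤ 0, ∀ g' D' Ω' b' E', IsOpen D' →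
      Met g' D' → Vac g' D' → Rol g' D' Ω' c A b' E' → Ln φ v ⊆ Ω' → Adp Ω' b' E' →
      (∀ p ∈ Ln φ v, Mb 3 B c0 g' (b' p) ∧ Jt 2 b' p B ∧ Jt 2 E' p B) →
      (∀ x, (0, x) ∈ Ln φ v → Dc g g' b b' E E' x δ) →
      ∀ p ∈ Ln φ (v - e1), ‖th b' E' p - th b E p‖ ≤ ε

/-- Interpolation on a cube with the corner p. -/
def IPL : Prop :=
  ∀ (k : ℕ) (V : Type) [NormedAddCommGroup V] [NormedSpace ℝ V] (B : ℝ), ∀ r > 0, ∀ ε > 0,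
    ∃ δ > 0, ∀ (f : R4 → V) (p : R4), (∀ q ∈ Icc p (p + (r, r, r, r)),
      ContDiffAt ℝ ∞ f q ∧ Jt (k + 1) f q B ∧ ‖f q‖ ≤ δ) → Jt k f p ε

/-- Bounds for the jets of a rolling and of its coframe. -/
def JET : Prop :=
  ∀ (k : ℕ) (B : ℝ), ∀ c0 > 0, ∃ F, ∀ g D Ω c b E (p : R4), IsOpen D → Met g D →
    Rol g D Ω c 0 b E → |p.1| ≤ B → (∀ s ∈ uIcc 0 p.1, (s, p.2) ∈ Ω ∧ Jt (k + 1) c (s, p.2) B ∧
      Mb (k + 2) B c0 g (b (s, p.2)) ∧ ‖b (s, p.2)‖ ≤ B ∧ ‖E (s, p.2)‖ ≤ B) →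
    Jt (k + 1) (fun x : X3 => b (0, x)) p.2 B → Jt (k + 1) (fun x : X3 => E (0, x)) p.2 B →
    Jt (k + 1) b p F ∧ Jt (k + 1) E p F ∧ Jt k (th b E) p F

/-- Bounds for the jets of the canonical frame on the slice. -/
def INF : Prop :=
  ∀ (k : ℕ) (B : ℝ), ∀ c0 > 0, ∃ F, ∀ g D Xf d c Ω b E y, Lor g D Xf → Ro g D Xf d c Ω b E →
    pt 0 y ∈ Ω → (∀ᶠ z in 𝓝 y, IndAt g Xf (pt 0) d z) → Mb k B c0 g (pt 0 y) →
    (∀ v : R4, v.1 = 0 → c0 * ‖v‖ ^ 2 ≤ g (pt 0 y) v v) →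
    Jt k (fun x : X3 => E (0, x)) (pt 0 y).2 F

/-- Close data have close coframes and second fundamental forms. -/
def DCL : Prop :=
  ∀ (B : ℝ), ∀ c0 > 0, ∀ ε > 0, ∃ η > 0, ∀ g D Xf d c Ω b E g' D' X' d' c' Ω' b' E' y,
    Lor g D Xf → Ro g D Xf d c Ω b E → Lor g' D' X' → Ro g' D' X' d' c' Ω' b' E' → pt 0 y ∈ Ω →
    pt 0 y ∈ Ω' → (∀ᶠ z in 𝓝 y, IndAt g Xf (pt 0) d z ∧ IndAt g' X' (pt 0) d' z) →
    Bd 2 g (pt 0 y) B → (∀ v : R4, v.1 = 0 → c0 * ‖v‖ ^ 2 ≤ g (pt 0 y) v v) → DJ 2 d' d y η →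
    Dc g g' b b' E E' (pt 0 y).2 ε ∧ ∀ v : R4, v.1 = 0 → c0 / 2 * ‖v‖ ^ 2 ≤ g' (pt 0 y) v v

/-- Close coframes give an almost isometry. -/
def TE : Prop :=
  ∀ (n : ℕ) W g Xf τ V d c Ω Φ Ψ E, Lens W g Xf τ V d → Str W g Xf τ V d c Ω Φ Ψ E → ∀ η > 0,
    ∃ ε > 0, ∀ V' ≤ V, ∀ g' D' X' d' Ω' b' E', Lor g' D' X' → Ro g' D' X' d' c Ω' b' E' →
      (∀ p ∈ Ω, Φ p ∈ KV W τ V' → p ∈ Ω' ∧ Jt n (fun x => th b' E' x - th Φ E x) p ε ∧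
        (0 < p.1 → 0 < (b' p).1)) → Emb (KV W τ V') g Xf g' X' n η (b' ∘ Ψ)

end Vale.Agent.P354UR
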