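import Vale.Agent.P354UR.Roll
import Vale.Agent.P354YO.Patch

/-!
The canonical frame along a spacelike slice.
-/

set_option maxSynthPendingDepth 3

open scoped ContDiff
open Set Filter Topology

namespace Vale.Agent.P354UR

open Vale.Agent.P354n (R4 mink)
open Vale.Agent.P354I (X Dat pd ee)
open Vale.Agent.P354RC
open Vale.Agent.P354XD (tb rp_tb)
open Vale.Agent.P354XE (Tw Lor eT pt xs)
open Vale.Agent.P354XU (L4 chol FR0)
open Vale.Agent.P354YO (mink_neg cone_trans)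

/-- Matrices. -/
abbrev M3 : Type := Matrix (Fin 3) (Fin 3) ℝ

/-- The radicands of the Cholesky factor are positive. -/
structure Pd (H : M3) : Prop where
  p0 : 0 < H 0 0
  p1 : 0 < H 1 1 - H 0 1 ^ 2 / H 0 0
  p2 : 0 < H 2 2 - H 0 2 ^ 2 / H 0 0 -
    (H 1 2 - H 0 1 * H 0 2 / H 0 0) ^ 2 / (H 1 1 - H 0 1 ^ 2 / H 0 0)

/-- The Gram-Schmidt vectors and the frame. -/
noncomputable def g0 (H : M3) (v : Fin 3 → R4) : R4 := (chol H 0 0)⁻¹ • v 0
noncomputable def g1 (H : M3) (v : Fin 3 → R4) : R4 :=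
  (chol H 1 1)⁻¹ • (v 1 - chol H 0 1 • g0 H v)
noncomputable def g2 (H : M3) (v : Fin 3 → R4) : R4 :=
  (chol H 2 2)⁻¹ • (v 2 - chol H 0 2 • g0 H v - chol H 1 2 • g1 H v)
noncomputable def Ef (n : R4) (H : M3) (v : Fin 3 → R4) : L4 :=
  (cv 0).smulRight n + (cv 1).smulRight (g0 H v) + (cv 2).smulRight (g1 H v) +
    (cv 3).smulRight (g2 H v)

variable {H : M3} {v : Fin 3 → R4} {n : R4} {B : B2}

theorem Ef_ap (u : R4) : Ef n H v u =
    u.1 • n + u.2.1 • g0 H v + u.2.2.1 • g1 H v + u.2.2.2 • g2 H v := rfl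

theorem Pd.pos (P : Pd H) : 0 < chol H 0 0 ∧ 0 < chol H 1 1 ∧ 0 < chol H 2 2 :=
  ⟨Real.sqrt_pos.2 P.p0, Real.sqrt_pos.2 P.p1, Real.sqrt_pos.2 P.p2⟩

theorem Pd.rel (P : Pd H) : chol H 0 0 * chol H 0 0 = H 0 0 ∧ chol H 0 0 * chol H 0 1 = H 0 1 ∧
    chol H 0 0 * chol H 0 2 = H 0 2 ∧ chol H 0 1 * chol H 0 1 + chol H 1 1 * chol H 1 1 = H 1 1 ∧
    chol H 0 1 * chol H 0 2 + chol H 1 1 * chol H 1 2 = H 1 2 ∧
    chol H 0 2 * chol H 0 2 + chol H 1 2 * chol H 1 2 + chol H 2 2 * chol H 2 2 = H 2 2 := by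
  obtain ⟨a, b, -⟩ := P.pos
  have e0 : chol H 0 0 * chol H 0 0 = _ := Real.mul_self_sqrt P.p0.le
  have e1 : chol H 1 1 * chol H 1 1 = _ := Real.mul_self_sqrt P.p1.le
  have e2 : chol H 2 2 * chol H 2 2 = _ := Real.mul_self_sqrt P.p2.le
  have e3 : chol H 0 1 = H 0 1 / chol H 0 0 := rfl
  have e4 : chol H 0 2 = H 0 2 / chol H 0 0 := rfl
  have e5 : chol H 1 2 = (H 1 2 - H 0 1 * H 0 2 / H 0 0) / chol H 1 1 := rfl
  rw [e3, e4, e5, div_mul_div_comm, div_mul_div_comm, div_mul_div_comm, div_mul_div_comm, e0, e1,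
    e2, mul_div_cancel₀ _ a.ne', mul_div_cancel₀ _ a.ne', mul_div_cancel₀ _ b.ne']
  refine ⟨rfl, rfl, rfl, ?_, ?_, ?_⟩ <;> ring

theorem Pd.exp (P : Pd H) (v : Fin 3 → R4) : v 0 = chol H 0 0 • g0 H v ∧
    v 1 = chol H 0 1 • g0 H v + chol H 1 1 • g1 H v ∧
    v 2 = chol H 0 2 • g0 H v + chol H 1 2 • g1 H v + chol H 2 2 • g2 H v := by
  obtain ⟨a, b, c⟩ := P.pos
  rw [g2, smul_inv_smul₀ c.ne']
  nth_rewrite 1 [g1, g0]
  rw [smul_inv_smul₀ a.ne', smul_inv_smul₀ b.ne']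
  exact ⟨rfl, by abel, by abel⟩

theorem Pd.ef (P : Pd H) (n : R4) (v : Fin 3 → R4) (i : Fin 3) :
    v i = Ef n H v (pt 0 (WithLp.toLp 2 fun k => chol H k i)) := by
  obtain ⟨a, b, c⟩ := P.exp v
  rw [Ef_ap]
  fin_cases i
  · simpa [pt, chol] using a
  · simpa [pt, chol] using b
  · simpa [pt] using c

theorem Pd.on (P : Pd H) (s : ∀ a b, B a b = B b a) (n1 : B n n = -1) (h1 : ∀ i, B (v i) n = 0)
    (h2 : ∀ i k, B (v i) (v k) = H i k) (u w : R4) : B (Ef n H v u) (Ef n H v w) = mink u w := by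
  obtain ⟨a, b, c⟩ := P.pos
  obtain ⟨r0, r1, r2, r3, r4, r5⟩ := P.rel
  obtain ⟨e0, e1, e2⟩ := P.exp v
  have k0 := h1 0
  have k1 := h1 1
  have k2 := h1 2
  have l0 := h2 0 0
  have l1 := h2 0 1
  have l2 := h2 0 2
  have l3 := h2 1 1
  have l4 := h2 1 2
  have l5 := h2 2 2
  rw [Ef_ap, Ef_ap]
  generalize g0 H v = x at *
  generalize g1 H v = y at *
  generalize g2 H v = z at *
  simp only [e0, e1, e2, map_add, map_smul, add_apply, smul_apply, smul_eq_mul, s y x, s z x, s z y,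
    s n x, s n y, s n z] at k0 k1 k2 l0 l1 l2 l3 l4 l5 ⊢
  have x0 : B x n = 0 := mul_left_cancel₀ a.ne' (by linear_combination k0)
  have x1 : B y n = 0 := mul_left_cancel₀ b.ne' (by rw [x0] at k1; linear_combination k1)
  have x2 : B z n = 0 := mul_left_cancel₀ c.ne' (by rw [x0, x1] at k2; linear_combination k2)
  have y0 : B x x = 1 := mul_left_cancel₀ (mul_pos a a).ne' (by linear_combination l0 - r0)
  rw [y0] at l1 l2 l3 l4 l5
  have y1 : B x y = 0 := mul_left_cancel₀ (mul_pos a b).ne' (by linear_combination l1 - r1)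
  rw [y1] at l2 l3 l4 l5
  have y2 : B x z = 0 := mul_left_cancel₀ (mul_pos a c).ne' (by linear_combination l2 - r2)
  have y3 : B y y = 1 := mul_left_cancel₀ (mul_pos b b).ne' (by linear_combination l3 - r3)
  rw [y2, y3] at l4 l5
  have y4 : B y z = 0 := mul_left_cancel₀ (mul_pos b c).ne' (by linear_combination l4 - r4)
  rw [y4] at l5
  have y5 : B z z = 1 := mul_left_cancel₀ (mul_pos c c).ne' (by linear_combination l5 - r5)
  rw [x0, x1, x2, y0, y1, y2, y3, y4, y5, n1, mink, P354n.cu, P354n.cu, P354n.cv, P354n.cv,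
    P354n.c1, P354n.c1, P354n.c2, P354n.c2]
  ring

theorem pd_of (s : ∀ a b, B a b = B b a) (h2 : ∀ i k, B (v i) (v k) = H i k)
    (pos : ∀ a b c : ℝ, a ≠ 0 ∨ b ≠ 0 ∨ c ≠ 0 →
      0 < B (a • v 0 + b • v 1 + c • v 2) (a • v 0 + b • v 1 + c • v 2)) : Pd H := by
  simp only [map_add, map_smul, add_apply, smul_apply, smul_eq_mul, s (v 1) (v 0), s (v 2) (v 0),
    s (v 2) (v 1), h2] at pos
  have p0 : 0 < H 0 0 := by simpa using pos 1 0 0 (by simp)
  have p1 : 0 < H 1 1 - H 0 1 ^ 2 / H 0 0 :=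
    (pos (-(H 0 1 / H 0 0)) 1 0 (by simp)).trans_eq (by field_simp; ring)
  refine ⟨p0, p1, ?_⟩
  obtain ⟨t, ht⟩ : ∃ t, H 1 2 - H 0 1 * H 0 2 / H 0 0 = t * (H 1 1 - H 0 1 ^ 2 / H 0 0) :=
    ⟨_, (div_mul_cancel₀ _ p1.ne').symm⟩
  rw [ht, mul_pow, mul_div_assoc, sq (_ - _), mul_div_cancel_right₀ _ p1.ne']
  refine (pos ((t * H 0 1 - H 0 2) / H 0 0) (-t) 1 (by simp)).trans_eq ?_
  rw [sub_eq_iff_eq_add.1 ht]
  field_simp
  ring

theorem pos_perp {g : Tw} {D : Set R4} {Y : R4 → R4} {p u : R4} (l : Lor g D Y) (m : p ∈ D)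
    (hn : g p n n < 0) (h : g p u n = 0) (hu : u ≠ 0) : 0 < g p u u := by
  obtain ⟨L, hL, i, e⟩ := l.sig p m
  rw [l.met.symm p m] at h
  rw [e] at hn h ⊢
  by_contra k
  rw [not_lt] at k
  have z : (L u).1 = 0 := by
    by_contra z
    have n0 : (L n).1 ≠ 0 := fun a => by
      simp only [mink, P354n.cu, P354n.cv, P354n.c1, P354n.c2, a] at hn
      nlinarith [mul_self_nonneg (L n).2.1, mul_self_nonneg (L n).2.2.1, mul_self_nonneg (L n).2.2.2]
    rcases lt_or_gt_of_ne (mul_ne_zero n0 z) with a | a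
    · have := mink_neg (w := -L u) hn (by simpa [← mB_ap] using k) (by simpa using a)
      simp [← mB_ap] at this h
      linarith
    · exact (mink_neg hn k a).ne h
  refine hu (i ((mink_nd fun w => ?_).trans hL.map_zero.symm))
  simp only [mink, P354n.cu, P354n.cv, P354n.c1, P354n.c2, z] at k ⊢
  have := mul_self_nonneg (L u).2.1
  have := mul_self_nonneg (L u).2.2.1
  have := mul_self_nonneg (L u).2.2.2
  rw [mul_self_eq_zero.1 (by linarith : (L u).2.1 * (L u).2.1 = 0),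
    mul_self_eq_zero.1 (by linarith : (L u).2.2.1 * (L u).2.2.1 = 0),
    mul_self_eq_zero.1 (by linarith : (L u).2.2.2 * (L u).2.2.2 = 0)]
  simp

/-- The component along the normal. -/
theorem Pd.prj (P : Pd H) (s : ∀ a b, B a b = B b a) (n1 : B n n = -1) (h1 : ∀ i, B (v i) n = 0)
    (h2 : ∀ i k, B (v i) (v k) = H i k) (w : R4) :
    w - B w (g0 H v) • g0 H v - B w (g1 H v) • g1 H v - B w (g2 H v) • g2 H v = (-B w n) • n := by
  have o := P.on s n1 h1 h2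
  obtain ⟨u, rfl⟩ := surj_of_inj (F := Ef n H v) ((injective_iff_map_eq_zero _).2 fun u e =>
    mink_nd fun w => by rw [← o, e]; simp) w
  have o0 := o u (bs 0)
  have o1 := o u (bs 1)
  have o2 := o u (bs 2)
  have o3 := o u (bs 3)
  rw [Ef_ap (bs _)] at o0 o1 o2 o3
  simp [bs, mink, P354n.cu, P354n.cv, P354n.c1, P354n.c2] at o0 o1 o2 o3
  rw [o0, o1, o2, o3, Ef_ap]
  module

section
variable {H : X → M3} {v : X → Fin 3 → R4} {y : X} (P : Pd (H y))
  (hH : ∀ i k, ContDiffAt ℝ ∞ (fun y => H y i k) y) (hv : ∀ i, ContDiffAt ℝ ∞ (fun y => v y i) y)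
include P hH

theorem chol_cd : ContDiffAt ℝ ∞ (fun y => chol (H y) 0 0) y ∧
    ContDiffAt ℝ ∞ (fun y => chol (H y) 0 1) y ∧ ContDiffAt ℝ ∞ (fun y => chol (H y) 0 2) y ∧
    ContDiffAt ℝ ∞ (fun y => chol (H y) 1 1) y ∧ ContDiffAt ℝ ∞ (fun y => chol (H y) 1 2) y ∧
    ContDiffAt ℝ ∞ (fun y => chol (H y) 2 2) y := by
  have a := (hH 0 0).sqrt P.p0.ne'
  have q := (hH 1 1).sub (((hH 0 1).pow 2).div (hH 0 0) P.p0.ne')
  have r := (hH 1 2).sub (((hH 0 1).mul (hH 0 2)).div (hH 0 0) P.p0.ne')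
  have b := q.sqrt P.p1.ne'
  exact ⟨a, (hH 0 1).div a P.pos.1.ne', (hH 0 2).div a P.pos.1.ne', b, r.div b P.pos.2.1.ne',
    (((hH 2 2).sub (((hH 0 2).pow 2).div (hH 0 0) P.p0.ne')).sub
      ((r.pow 2).div q P.p1.ne')).sqrt P.p2.ne'⟩

include hv

theorem gs_cd : ContDiffAt ℝ ∞ (fun y => g0 (H y) (v y)) y ∧
    ContDiffAt ℝ ∞ (fun y => g1 (H y) (v y)) y ∧ ContDiffAt ℝ ∞ (fun y => g2 (H y) (v y)) y := by
  obtain ⟨a, b, c, d, e, f⟩ := chol_cd P hH
  have k0 := (a.inv P.pos.1.ne').smul (hv 0)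
  have k1 := (d.inv P.pos.2.1.ne').smul ((hv 1).sub (b.smul k0))
  exact ⟨k0, k1, (f.inv P.pos.2.2.ne').smul (((hv 2).sub (c.smul k0)).sub (e.smul k1))⟩

end

theorem xs_pt (t : ℝ) (y : X) : xs (pt t y) = y := by
  ext i
  fin_cases i <;> rfl

theorem xs_cd : ContDiff ℝ ∞ xs := by
  unfold xs
  refine contDiff_euclidean.2 fun i => ?_
  fin_cases i <;> simp <;> fun_prop

/-- **FR0.** -/
theorem fr0 : FR0 := by
  intro g D Xf J d O l S
  have r := rp_tb l.isOpen l.met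
  choose! G n c n1 n2 k using S.ind
  have mD := fun y m => S.maps (x := y) m
  have s := fun y m => r.symm _ (mD y m)
  have sJ : ∀ y ∈ O, ContDiffAt ℝ ∞ J y := fun y m => S.sm.contDiffAt (S.isOpen.mem_nhds m)
  have sv : ∀ y ∈ O, ∀ i, ContDiffAt ℝ ∞ (fun y => pd i J y) y := fun y m i =>
    ((sJ y m).fderiv_right (m := ∞) (by simp)).clm_apply contDiffAt_const
  have sB : ∀ y ∈ O, ContDiffAt ℝ ∞ (fun y => tb g (J y)) y := fun y m =>
    (r.at (mD y m)).comp y (sJ y m)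
  have a1 : ∀ y ∈ O, tb g (J y) (n y) (n y) = -1 := fun y m => r.eq _ (mD y m) _ _ ▸ n1 y m
  have a2 : ∀ y ∈ O, ∀ i, tb g (J y) (pd i J y) (n y) = 0 := fun y m i =>
    r.eq _ (mD y m) _ _ ▸ (k y m i i).1
  have a3 : ∀ y ∈ O, ∀ i j, tb g (J y) (pd i J y) (pd j J y) = d.h y i j := fun y m i j =>
    r.eq _ (mD y m) _ _ ▸ (k y m i j).2.1
  have sH : ∀ y ∈ O, ∀ i j, ContDiffAt ℝ ∞ (fun y => d.h y i j) y := fun y m i j =>
    (((sB y m).clm_apply (sv y m i)).clm_apply (sv y m j)).congr_of_eventuallyEq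
      ((S.isOpen.eventually_mem m).mono fun z a => (a3 z a i j).symm)
  have P : ∀ y ∈ O, Pd (d.h y) := fun y m => pd_of (v := fun i => pd i J y) (s y m) (a3 y m)
    fun a b c h => by
      rw [← r.eq _ (mD y m)]
      refine pos_perp l (mD y m) (n := n y) (by rw [n1 y m]; norm_num)
        (by simp [r.eq _ (mD y m), a2 y m]) fun e => ?_
      have e2 : a • ee 0 + b • ee 1 + c • ee 2 = 0 := S.inj y m (by simpa [pd] using e)
      have e3 := fun i => congrArg (fun u : X => u i) e2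
      rcases h with h | h | h
      exacts [h (by simpa [ee] using e3 0), h (by simpa [ee] using e3 1),
        h (by simpa [ee] using e3 2)]
  have gs := fun y m => gs_cd (v := fun y i => pd i J y) (P y m) (sH y m) (sv y m)
  have sn : ∀ y ∈ O, ContDiffAt ℝ ∞ n y := fun y m => by
    have b := (sB y m).clm_apply (contDiffAt_const (c := n y))
    obtain ⟨e0, e1, e2⟩ := gs y m
    have N := ((contDiffAt_const (c := n y).sub ((b.clm_apply e0).smul e0)).sub
      ((b.clm_apply e1).smul e1)).sub ((b.clm_apply e2).smul e2)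
    have pr := fun z a => (P z a).prj (v := fun i => pd i J z) (s z a) (a1 z a) (a2 z a) (a3 z a) (n y)
    refine (((((sB y m).clm_apply N).clm_apply N).neg.sqrt ?_).inv ?_).smul N
      |>.congr_of_eventuallyEq ?_
    · simp [pr y m, a1 y m]
    · simp [pr y m, a1 y m]
    have c1 := (b.clm_apply (contDiffAt_const (c := n y))).continuousAt.eventually_lt
      continuousAt_const (show _ < (0 : ℝ) by simp [a1 y m])
    have c2 := (b.continuousAt.clm_apply ((l.cont.continuousAt (l.isOpen.mem_nhds (mD y m))).comp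
      (sJ y m).continuousAt)).eventually_lt continuousAt_const
      (show _ < (0 : ℝ) from r.eq _ (mD y m) _ _ ▸ n2 y m)
    filter_upwards [c1, c2, S.isOpen.eventually_mem m] with z b1 b2 a
    have t : 0 < -tb g (J z) (n y) (n z) := by
      rw [neg_pos, ← r.eq _ (mD z a)] at *
      exact cone_trans l (mD z a) b1 (l.tl _ (mD z a)) (by rw [n1 z a]; norm_num) b2
        (l.met.symm _ (mD z a) _ _ ▸ n2 z a)
    simp only [Pi.smul_apply', Pi.inv_apply, pr z a, map_smul, smul_apply, smul_eq_mul, a1 z a]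
    rw [mul_neg_one, mul_neg, neg_neg, Real.sqrt_mul_self t.le, inv_smul_smul₀ t.ne']
  refine ⟨fun x => Ef (n (xs (0, x))) (d.h (xs (0, x))) fun i => pd i J (xs (0, x)),
    fun x m => ContDiffAt.contDiffWithinAt ?_, fun y m => ?_, fun y m u w => ?_⟩
  · obtain ⟨e0, e1, e2⟩ := gs _ m
    exact ContDiffAt.comp (g := fun y => Ef (n y) (d.h y) fun i => pd i J y) x
      ((((contDiffAt_const.smulRight (sn _ m)).add (contDiffAt_const.smulRight e0)).add
        (contDiffAt_const.smulRight e1)).add (contDiffAt_const.smulRight e2))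
      (xs_cd.contDiffAt.comp x (contDiffAt_const.prodMk contDiffAt_id))
  · have e : xs (0, (pt 0 y).2) = y := xs_pt 0 y
    simp only [e, Function.comp, xs_pt]
    exact ⟨trivial, by simpa [Ef_ap, eT] using n2 y m, (P y m).ef _ fun i => pd i J y⟩
  · have e : xs (0, (pt 0 y).2) = y := xs_pt 0 y
    simp only [e]
    rw [r.eq _ (mD y m)]
    exact (P y m).on (s y m) (a1 y m) (a2 y m) (a3 y m) u w

end Vale.Agent.P354UR
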