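import Vale.Agent.P354UR.Bot2
import Vale.Agent.P354SL.Mon

/-!
BOT: the chart of the window on the initial slice.
-/

open scoped ContDiff
open Set Real Filter Topology Matrix

noncomputable section

namespace Vale.Agent.P354UR

open Vale.Agent.P354H (X3)
open Vale.Agent.P354I (X rm rp)
open Vale.Agent.P354E (sg)
open Vale.Agent.P354XE (Par)
open Vale.Agent.P354XB (Win)
open Vale.Agent.P354XP (Cht Hull dir)
open Vale.Agent.P354YQ (SA JB JD)
open Vale.Agent.P354SA (Y2 Sl2 Wd Wk MON BOT Bot jS)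

namespace Bt

theorem win_open (R w : ℝ) : IsOpen (Win R w 6) :=
  (isOpen_Ioo.preimage continuous_fst).inter (isOpen_lt continuous_snd.norm continuous_const)

/-- The smaller window. -/
def Ws (w : ℝ) : Set X3 := Wd (-(5 + 1) * w) ((6 + 1) * w) (31 / 4)

theorem win_ws {R w : ℝ} (hw : 0 < w) {z : X3} (h : z ∈ Win R w 6) : (z.1 - R, z.2) ∈ Ws w :=
  ⟨⟨by linarith [h.1.1], by linarith [h.1.2]⟩, h.2.trans (by norm_num)⟩

theorem ws_wk {w : ℝ} {x : X3} (h : x ∈ Ws w) : x ∈ Wk w 1 := ⟨h.1, h.2.trans (by norm_num)⟩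

variable {n : ℕ} {E C0 C ε T w : ℝ} {ρ : X3 → ℝ} {η : X3 → Y2} {x x' : X3}

theorem lab' (hM : MON) (h : Bot n E C0 C ε T w ρ η) (hC : 1 ≤ C) (h0 : 1 ≤ C0)
    (hw : C0 ^ 2 * w ≤ 1 / 60) (hx : x ∈ Ws w) (hx' : x' ∈ Ws w) :
    |x.1 - x'.1| ≤ C * (|ρ x - ρ x'| + 2 * C0 ^ 2 * (ε * T) * ‖η x - η x'‖) ∧
      ‖x.2 - x'.2‖ ≤ C0 * (‖η x - η x'‖ + C0 * |x.1 - x'.1|) ∧ (x.1 ≤ x'.1 →
      C⁻¹ * (x'.1 - x.1) - 2 * C0 ^ 2 * (ε * T) * ‖η x' - η x‖ ≤ ρ x' - ρ x) := by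
  have s : Sl2 C0 (ε * T) C (Wd (-(5 + 1) * w) ((6 + 1) * w) (31 / 4 + 1 / 4)) ρ η := by
    rw [show (31 / 4 + 1 / 4 : ℝ) = 15 / 2 + 1 / 2 by norm_num]
    exact h.sl
  have l : C0 ^ 2 * ((6 + 1) * w - -(5 + 1) * w) < 1 / 4 := by linarith
  have := lab hM (by linarith) (by linarith) l s hx hx'
  exact ⟨this.1, this.2, hM _ _ _ _ _ _ _ _ (by linarith) l s x hx x' hx'⟩

theorem in_of (h : Bot n E C0 C ε T w ρ η) (hε : ε ≤ 1 / 8) (hT : 0 ≤ T) (hx : x ∈ Ws w) :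
    In T E (ρ x, η x) := by
  obtain ⟨a, b, -⟩ := h.bd x (ws_wk hx)
  obtain ⟨a1, a2⟩ := abs_le.1 (a.trans (mul_le_mul_of_nonneg_right hε hT))
  exact ⟨by linarith, by linarith, b⟩

theorem gap (hM : MON) (h : Bot n E C0 C ε T w ρ η) (hC : 1 ≤ C) (h0 : 1 ≤ C0)
    (hw : C0 ^ 2 * w ≤ 1 / 60) (hP : 0 < ε * T) (hx : x ∈ Ws w) (hx' : x' ∈ Ws w)
    (k : x.1 ≤ x'.1 ∨ 1 / 2 ≤ ‖x.2 - x'.2‖) :
    ρ x - ρ x' ≤ 9 * C0 ^ 2 * (ε * T) * ‖η x - η x'‖ := by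
  obtain ⟨-, a, b⟩ := lab' hM h hC h0 hw hx hx'
  have n := norm_nonneg (η x - η x')
  have p : 0 ≤ C0 ^ 2 * (ε * T) * ‖η x - η x'‖ := by positivity
  rcases k with k | k
  · have : 0 ≤ C⁻¹ * (x'.1 - x.1) := mul_nonneg (by positivity) (sub_nonneg.2 k)
    rw [norm_sub_rev] at b
    linarith [b k]
  · have d : |x.1 - x'.1| ≤ 13 * w :=
      abs_le.2 ⟨by linarith [hx.1.1, hx'.1.2], by linarith [hx.1.2, hx'.1.1]⟩
    have d1 : 1 / 4 ≤ C0 * ‖η x - η x'‖ := by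
      nlinarith [mul_le_mul_of_nonneg_left d (sq_nonneg C0)]
    have d2 := abs_le.1 (h.bd x (ws_wk hx)).1
    have d3 := abs_le.1 (h.bd x' (ws_wk hx')).1
    have d4 : C0 * ‖η x - η x'‖ ≤ C0 ^ 2 * ‖η x - η x'‖ := by gcongr; nlinarith
    nlinarith [mul_le_mul_of_nonneg_left (d1.trans d4) hP.le]

theorem anti (hM : MON) (h : Bot n E C0 C ε T w ρ η) (hC : 1 ≤ C) (h0 : 1 ≤ C0)
    (hw : C0 ^ 2 * w ≤ 1 / 60) (hε : ε ≤ 1 / 8) {Γ : ℝ} {p : Pa} (o : Ok Γ T p)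
    (σ : Bool) (hx : x ∈ Ws w) (hx' : x' ∈ Ws w) {D : ℝ} (hD : D = (1 + 2 * E ^ 2) * (1 + 18 * Γ)) :
    ‖x - x'‖ ≤ C0 * (D + C0 * (C * (2 + 2 * C0 ^ 2 * D))) * T *
      ‖hh σ (p, ρ x, η x) - hh σ (p, ρ x', η x')‖ := by
  have T8 := o.T8
  obtain ⟨a, b, -⟩ := lab' hM h hC h0 hw hx hx'
  obtain ⟨c, d⟩ := o.anti (σ := σ) (in_of h hε (by linarith) hx) (in_of h hε (by linarith) hx')
  have D0 : 0 ≤ D := by have := o.one; rw [hD]; positivity
  rw [← hD] at d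
  have N0 := norm_nonneg (hh σ (p, ρ x, η x) - hh σ (p, ρ x', η x'))
  generalize ‖hh σ (p, ρ x, η x) - hh σ (p, ρ x', η x')‖ = N at *
  have e1 : |x.1 - x'.1| ≤ C * (2 + 2 * C0 ^ 2 * D) * (T * N) :=
    calc _ ≤ _ := a
      _ ≤ C * (2 * (T * N) + 2 * C0 ^ 2 * T * (D * N)) := by
        gcongr
        · exact c.trans (by nlinarith)
        · nlinarith
      _ = _ := by ring
  have L0 : 0 ≤ C * (2 + 2 * C0 ^ 2 * D) := by positivity
  generalize C * (2 + 2 * C0 ^ 2 * D) = L at *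
  have TN : 0 ≤ T * N := by positivity
  have e2 : ‖η x - η x'‖ ≤ D * (T * N) := d.trans (by gcongr; nlinarith)
  rw [mul_assoc]
  refine max_le (e1.trans ?_) (b.trans ?_)
  · gcongr
    nlinarith [mul_nonneg (sub_nonneg.2 h0) L0, mul_nonneg (sub_nonneg.2 h0) D0]
  · rw [mul_assoc, add_mul, mul_assoc]
    gcongr

theorem mn_of {j : X3 → X} {R Λ l : ℝ} (hw : 0 < w) (l0 : 0 < l)
    (J : ∀ z ∈ Win R w 6, DifferentiableAt ℝ j z ∧ j z ≠ 0)
    (A : ∀ z ∈ Win R w 6, ∀ z' ∈ Win R w 6, ‖z - z'‖ ≤ Λ * ‖j z - j z'‖)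
    (H : ∀ z ∈ Win R w 6, ∀ x ∈ Win R w 6, z.1 ≤ x.1 ∨ 1 / 2 ≤ ‖z.2 - x.2‖ →
      ‖j z‖ ≤ ‖j x‖ + l / 2 * ‖dir (j z) - dir (j x)‖) : P354KX.Mn R w l j := by
  refine ⟨fun z m ξ hξ k => mono_of (J z m).1 (J z m).2 (low (J z m).1
    (((win_open R w).eventually_mem m).mono fun x k => A x k z m)) l0
    (((win_open R w).eventually_mem m).mono fun x mx k => H x mx z m (.inl k)) hξ k,
    fun z m k ⟨_, ⟨x, hx, rfl⟩, b⟩ => ?_⟩
  have mx : x ∈ Win R w 6 :=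
    ⟨⟨by linarith [hx.1.1], by linarith [hx.1.2]⟩, hx.2.trans_lt (by norm_num)⟩
  have g : 1 / 2 ≤ ‖z.2 - x.2‖ := by linarith [norm_sub_norm_le z.2 x.2, hx.2]
  have u := H z m x mx (.inr g)
  have n := norm_nonneg (dir (j z) - dir (j x))
  have n0 : ‖dir (j z) - dir (j x)‖ = 0 := by nlinarith
  have n1 : ‖j z‖ = ‖j x‖ := by rw [n0] at u b; linarith
  rw [norm_eq_zero, sub_eq_zero, dir, dir, n1] at n0
  have := A z m x mx
  rw [smul_right_injective _ (inv_ne_zero (norm_ne_zero_iff.2 (J x mx).2)) n0] at this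
  have := (norm_snd_le (z - x)).trans this
  simp only [sub_self, norm_zero, mul_zero, Prod.snd_sub] at this
  linarith

end Bt

open Bt

theorem bot (hM : MON) : BOT := by
  intro M a E C0 h h0
  obtain ⟨ε1, e1, Γ, hΓ, hp⟩ := par_bd h
  obtain ⟨D1, hD1⟩ : ∃ D1, D1 = 1 + 2 * E ^ 2 := ⟨_, rfl⟩
  have D0 : 0 < D1 := by rw [hD1]; positivity
  refine ⟨D1⁻¹, by positivity, 1 / 60 / C0 ^ 2, by positivity, fun w hw n C hC c0 hc0 => ?_⟩
  have hw' : C0 ^ 2 * w ≤ 1 / 60 := by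
    rw [mul_comm, ← le_div_iff₀ (by positivity)]; exact hw.2
  obtain ⟨B, B0, hB⟩ := hh_jb n Γ E
  obtain ⟨D, hD⟩ : ∃ D, D = (1 + 2 * E ^ 2) * (1 + 18 * Γ) := ⟨_, rfl⟩
  obtain ⟨L, hL⟩ : ∃ L, L = C0 * (D + C0 * (C * (2 + 2 * C0 ^ 2 * D))) := ⟨_, rfl⟩
  refine ⟨min (min ε1 (1 / 8)) (min (D1⁻¹ / 3) (min (1 / (162 * (D1 * Γ * C0 ^ 2)))
    (c0 / (144 * (D1 * C0 ^ 2))))), by positivity,
    max (8 * Γ) (max (6 * L ^ 3) (n.factorial * (B * 2) * (n.factorial * C ^ n) ^ n)), n * n + 4,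
    fun q σ T R G ρ η hq hT hG hb => ?_⟩
  generalize hε : min (min ε1 (1 / 8)) (min (D1⁻¹ / 3) (min (1 / (162 * (D1 * Γ * C0 ^ 2)))
    (c0 / (144 * (D1 * C0 ^ 2))))) = ε at hq hb
  have e0 : 0 < ε := by rw [← hε]; positivity
  have := hε.ge
  simp only [le_min_iff] at this
  obtain ⟨⟨i1, i2⟩, i3, i4, i5⟩ := this
  simp only [max_le_iff] at hT
  obtain ⟨t1, t2, t3⟩ := hT
  obtain ⟨q1, q2, q3, q4, q5⟩ := hq
  have l0 : q.l ≠ 0 := fun k => by rw [k] at q3; norm_num at q3; linarith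
  have g1 := hp M a (by simpa) (by simpa)
  have o : Ok Γ T (pa M a q) := ⟨max_le g1 (max_le (hp _ _ (q1.trans_le i1) (q2.trans_le i1))
    (((rl q).opNorm_le_bound zero_le_one fun z => by rw [rl_norm q4, one_mul]).trans hΓ)),
    rl_norm q4, hΓ, t1⟩
  have T8 := o.T8
  have T0 : 0 ≤ T := by linarith
  have I := fun z (m : z ∈ Win R w 6) => in_of hb i2 (by linarith) (win_ws hw.1 m)
  have e : ∀ z ∈ Win R w 6, jS M a q σ R ρ η z =
      hh σ (pa M a q, ρ (z.1 - R, z.2), η (z.1 - R, z.2)) := fun z m =>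
    pS_eq h q4 l0 (((le_abs_self _).trans (th_bd g1).2.1).trans_lt
      (lt_of_lt_of_le (by linarith) (I z m).1)) σ _
  have J : ∀ z ∈ Win R w 6, JB n (jS M a q σ R ρ η) z G := fun z m => by
    have s : JD n (fun z : X3 => ((z.1 - R, z.2) : X3)) z 1 :=
      ((JD.id.sub (JD.const ((R, 0) : X3))).mono (add_zero _).le).congr
        (.of_forall fun y => by simp [Prod.ext_iff])
    have CT : 1 ≤ C * T := one_le_mul_of_one_le_of_one_le hC (by linarith)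
    have s2 := (hb.bd _ (ws_wk (win_ws hw.1 m))).2.2.comp
      (f := fun z : X3 => ((z.1 - R, z.2) : X3)) s le_rfl (by positivity)
    have f1 : (1 : ℝ) ≤ n.factorial := by exact_mod_cast n.factorial_pos
    have s3 := (hB σ (pa M a q) _ o.bd (by linarith [(I z m).1]) (by linarith [(I z m).1])
      (I z m).2.2).comp (f := fun z : X3 => (ρ (z.1 - R, z.2), η (z.1 - R, z.2))) s2 (by
        rw [one_pow, mul_one]; exact one_le_mul_of_one_le_of_one_le f1 (one_le_pow₀ CT))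
    refine (s3.congr (((win_open R w).eventually_mem m).mono e)).mono (le_trans ?_ hG)
    calc _ ≤ n.factorial * (B * (2 * T)) * (n.factorial * (C * T) ^ n * 1 ^ n) ^ n := by
          gcongr; linarith [(I z m).2.1]
      _ = n.factorial * (B * 2) * (n.factorial * C ^ n) ^ n * T ^ (n * n + 1) := by
          simp only [mul_pow, one_pow, pow_succ, pow_mul]; ring
      _ ≤ T * T ^ (n * n + 1) := by gcongr
      _ ≤ _ := by rw [← pow_succ']; exact pow_le_pow_right₀ (by linarith) (by omega)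
  have A : ∀ z ∈ Win R w 6, ∀ z' ∈ Win R w 6,
      ‖z - z'‖ ≤ L * T * ‖jS M a q σ R ρ η z - jS M a q σ R ρ η z'‖ := fun z m z' m' => by
    have := anti hM hb hC h0 hw' i2 o σ (win_ws hw.1 m) (win_ws hw.1 m') hD
    rwa [← hL, ← e z m, ← e z' m', show ((z.1 - R, z.2) : X3) - (z'.1 - R, z'.2) = z - z' by
      simp [Prod.ext_iff]] at this
  have H : ∀ z ∈ Win R w 6, ∀ x ∈ Win R w 6, z.1 ≤ x.1 ∨ 1 / 2 ≤ ‖z.2 - x.2‖ →
      ‖jS M a q σ R ρ η z‖ ≤ ‖jS M a q σ R ρ η x‖ + c0 * (3 / 4 * T) / 2 *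
        ‖dir (jS M a q σ R ρ η z) - dir (jS M a q σ R ρ η x)‖ := fun z m x mx k => by
    rw [e z m, e x mx]
    have g := gap hM hb hC h0 hw' (by positivity) (win_ws hw.1 m) (win_ws hw.1 mx)
      (k.imp (fun k => sub_le_sub_right k R) id)
    refine o.hull (I z m) (I x mx) g (by positivity) ?_ ?_
    · rw [le_div_iff₀ (by positivity)] at i4
      rw [← hD1]
      linarith only [mul_le_mul_of_nonneg_right i4 T0]
    · rw [le_div_iff₀ (by positivity)] at i5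
      rw [← hD1]
      linarith only [mul_le_mul_of_nonneg_right i5 T0]
  have N : ∀ z ∈ Win R w 6, jS M a q σ R ρ η z ≠ 0 := fun z m => norm_pos_iff.1 (by
    rw [e z m, o.norm_eq (I z m)]; linarith [(o.yr_mem (I z m)).1])
  refine ⟨⟨fun z m => (J z m).sm.at.contDiffWithinAt, fun z m z' m' k => by
    simpa [k, sub_eq_zero] using A z m z' m', fun z m => ⟨?_, fun i α hα => ?_⟩, fun z m => ?_⟩,
    mn_of hw.1 (by positivity) (fun z m => ⟨(J z m).sm.diff, N z m⟩) A H⟩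
  · have d := det_ge (J z m).sm.diff (low (J z m).sm.diff
      (((win_open R w).eventually_mem m).mono fun x k => A x k z m))
    have G4 : T ^ 4 ≤ G := (pow_le_pow_right₀ (by linarith) (by omega)).trans hG
    rw [inv_le_iff_one_le_mul₀' (lt_of_lt_of_le (by positivity) G4)]
    refine d.trans (mul_le_mul_of_nonneg_right (le_trans ?_ G4) (abs_nonneg _))
    rw [mul_pow, ← mul_assoc, pow_succ' T 3]
    gcongr
  · rw [one_pow, mul_one]
    refine pdl_le α (((J z m).clm (EuclideanSpace.proj i : X →L[ℝ] ℝ)).mono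
      (mul_le_of_le_one_left (J z m).nonneg ?_)) hα
    exact ContinuousLinearMap.opNorm_le_bound _ zero_le_one fun v => by
      simpa using PiLp.norm_apply_le v i
  · have y := o.yr_mem (I z m)
    have p := pole (σ := σ) (p := pa M a q) q5 rfl (I z m).2.2 (by rw [← hD1]; linarith)
    rw [e z m, o.norm_eq (I z m)]
    refine ⟨y.1, by linarith [y.2], ?_⟩
    rw [← hD1] at p
    have := mul_le_mul_of_nonneg_right p (show 0 ≤ yr _ _ by linarith [y.1])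
    simp only [hh, PiLp.smul_apply, smul_eq_mul]
    linarith

theorem bot_ok : BOT := bot P354SL.mon

end Vale.Agent.P354UR
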