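import Vale.Agent.P354SA.Far
import Vale.Agent.P354RF.Bas

/-!
The chart of the initial slice: the explicit form and elementary estimates.
-/

open scoped ContDiff
open Set Real Filter Topology Matrix

noncomputable section

namespace Vale.Agent.P354UR.Bt

open Vale.Agent.P354H (X3 e pd pdl)
open Vale.Agent.P354I (X rm rp)
open Vale.Agent.P354E (stv stv_smooth sg sg_sq st_0 st_1 st_2 st_den)
open Vale.Agent.P354XE (Par xs pt rd kap ka ky mf)
open Vale.Agent.P354YJ (rz)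
open Vale.Agent.P354YW (nsq rz_norm rz_smul rd_pt kp_eq)
open Vale.Agent.P354XA (xs_pt hor rd_lin)
open Vale.Agent.P354YQ (SA JB JD)
open Vale.Agent.P354SA (Y2 pS tS fz Fq ps Tq Th)
open Vale.Agent.P354RF (rz_cd)

abbrev Pa : Type := X3 × X3 × (X →L[ℝ] X)

def lg (θ : X3) (x : ℝ) : ℝ := θ.1 * (log (x - θ.2.1) - log (x - θ.2.2))
def yr (θ : X3) (x : ℝ) : ℝ := (√(x - θ.2.1) + √(x - θ.2.2)) ^ 2 / 4
def nn (σ : Bool) (p : Pa) (y : ℝ × Y2) : X :=
  rz (-lg p.1 y.1 / 2) (p.2.2 (rz (lg p.2.1 y.1) (stv σ y.2)))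
def hh (σ : Bool) (w : Pa × ℝ × Y2) : X := yr w.1.1 w.2.1 • nn σ w.1 w.2
def th (M a : ℝ) : X3 := (2 * a / (rp M a - rm M a), rp M a, rm M a)
def rl (q : Par) : X →L[ℝ] X :=
  LinearMap.toContinuousLinearMap (Matrix.toEuclideanLin q.R)
def pa (M a : ℝ) (q : Par) : Pa := (th M a, th q.M q.a, rl q)

theorem lin_pt (q : Par) (t : ℝ) (z : X) : q.lin (pt t z) = pt (q.l * t) (rl q z) := by
  rw [Par.lin, xs_pt]; rfl

theorem rl_norm {q : Par} (h : q.Rᵀ * q.R = 1) (z : X) : ‖rl q z‖ = ‖z‖ := by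
  have := rd_lin h (pt 0 z)
  rwa [lin_pt, rd_pt, rd_pt] at this

theorem stv_norm (σ : Bool) (y : Y2) : ‖stv σ y‖ = 1 := by
  exact mem_sphere_zero_iff_norm.1 (P354E.st σ y).2

theorem nn_norm {p : Pa} (h : ∀ z, ‖p.2.2 z‖ = ‖z‖) (σ : Bool) (y : ℝ × Y2) : ‖nn σ p y‖ = 1 := by
  rw [nn, rz_norm, h, rz_norm, stv_norm]

theorem pS_eq {M a r : ℝ} {q : Par} (h : |a| < M) (hq : q.Rᵀ * q.R = 1) (hl : q.l ≠ 0)
    (hr : rp M a < r) (σ : Bool) (η : Y2) :
    xs (kap M a (pS M a q σ r η)) = hh σ (pa M a q, r, η) := by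
  obtain ⟨m0, m1, m2, -, m4, -, m6⟩ := hor h
  have p0 : 0 < rp M a := by linarith
  have r0 : 0 < r := by linarith
  have q1 : 0 < r - rp M a := by linarith
  have q2 : 0 < r - rm M a := by linarith
  have q3 := sqrt_pos.2 q1
  have q4 := sq_sqrt q1.le
  have e0 : pS M a q σ r η = pt (tS M a r) (r • rl q (rz (lg (th q.M q.a) r) (stv σ η))) := by
    rw [pS, Tq, Function.comp, Th, lin_pt, map_smul]
    congr 1
    simp only [fz]
    field_simp
    ring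
  have n1 : ‖r • rl q (rz (lg (th q.M q.a) r) (stv σ η))‖ = r := by
    rw [norm_smul, rl_norm hq, rz_norm, stv_norm, mul_one, norm_of_nonneg r0.le]
  have e1 : mf M a r * exp (ka M a * tS M a r) = √(r - rp M a) := by
    rw [mf, rpow_def_of_pos q2, sqrt_eq_rpow, rpow_def_of_pos q1, ← exp_add, tS, Fq]
    congr 1
    field_simp
    ring
  have e2 : (√(r - rp M a) - -(r - rp M a) / √(r - rp M a)) / 2 = √(r - rp M a) := by
    field_simp
    linarith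
  have e3 : ky M a √(r - rp M a) = yr (th M a) r := by
    rw [ky, yr, q4, show r - rp M a + 2 * √(M ^ 2 - a ^ 2) = r - rm M a by simp only [rm, rp]; ring]
    simp only [th]
    ring
  have e4 : a / rp M a * log (r - rm M a) - a / (2 * M * rp M a) * tS M a r =
      -lg (th M a) r / 2 := by
    have k : ka M a = (rp M a - rm M a) / (4 * M * rp M a) := by rw [m6]; field_simp
    have : rp M a - rm M a ≠ 0 := by linarith
    simp only [tS, Fq, lg, th, k]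
    field_simp
    ring
  rw [e0, kap, rd_pt, n1, xs_pt, kp_eq, xs_pt, n1, show (pt (tS M a r) _).1 = tS M a r from rfl, e1,
    e2, e3, e4, rz_smul, smul_smul, div_mul_cancel₀ _ r0.ne']
  rfl

/-! ### Jets -/

def Uo : Set (Pa × ℝ × Y2) := {w | w.1.1.2.1 < w.2.1 ∧ w.1.1.2.2 < w.2.1 ∧ w.1.2.1.2.1 < w.2.1 ∧
  w.1.2.1.2.2 < w.2.1}

theorem uo_open : IsOpen Uo := by
  refine IsOpen.and ?_ (IsOpen.and ?_ (IsOpen.and ?_ ?_)) <;>
    exact isOpen_lt (by fun_prop) (by fun_prop)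

theorem hh_cd (σ : Bool) {w : Pa × ℝ × Y2} (h : w ∈ Uo) : ContDiffAt ℝ ∞ (hh σ) w := by
  obtain ⟨a, b, c, d⟩ := h
  have s := stv_smooth σ
  have l : ∀ f : Pa × ℝ × Y2 → X3, ContDiffAt ℝ ∞ f w → (f w).2.1 < w.2.1 → (f w).2.2 < w.2.1 →
      ContDiffAt ℝ ∞ (fun w => lg (f w) w.2.1) w := fun f k u v =>
    k.fst.mul (((contDiffAt_snd.fst.sub k.snd.fst).log (sub_pos.2 u).ne').sub
      ((contDiffAt_snd.fst.sub k.snd.snd).log (sub_pos.2 v).ne'))
  have c1 : ContDiffAt ℝ ∞ (fun w : Pa × ℝ × Y2 => w.2.1 - w.1.1.2.1) w := by fun_prop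
  have c2 : ContDiffAt ℝ ∞ (fun w : Pa × ℝ × Y2 => w.2.1 - w.1.1.2.2) w := by fun_prop
  refine ContDiffAt.smul (f := fun w : Pa × ℝ × Y2 => yr w.1.1 w.2.1)
    ((((c1.sqrt (sub_pos.2 a).ne').add (c2.sqrt (sub_pos.2 b).ne')).pow 2).div_const 4) ?_
  exact rz_cd ((l (fun w => w.1.1) (by fun_prop) a b).neg.div_const 2)
    (ContDiffAt.clm_apply (by fun_prop)
      (rz_cd (l (fun w => w.1.2.1) (by fun_prop) c d) (by fun_prop)))

def sc (ρ : ℝ) (θ : X3) : X3 := (θ.1, θ.2.1 / ρ, θ.2.2 / ρ)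

theorem lg_sc {ρ x : ℝ} {θ : X3} (h : 0 < ρ) (u : θ.2.1 < x) (v : θ.2.2 < x) :
    lg (sc ρ θ) (x / ρ) = lg θ x := by
  simp only [lg, sc, ← sub_div]
  rw [log_div (sub_pos.2 u).ne' h.ne', log_div (sub_pos.2 v).ne' h.ne']
  ring

theorem yr_sc {ρ : ℝ} (h : 0 < ρ) (θ : X3) (x : ℝ) : ρ * yr (sc ρ θ) (x / ρ) = yr θ x := by
  simp only [yr, sc, ← sub_div, sqrt_div' _ h.le, ← add_div, div_pow, sq_sqrt h.le]
  field_simp

theorem hh_jb (n : ℕ) (Γ E : ℝ) : ∃ B ≥ 0, ∀ (σ : Bool) (p : Pa) (y : ℝ × Y2), ‖p‖ ≤ Γ →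
    2 * Γ ≤ y.1 → 1 ≤ y.1 → ‖y.2‖ ≤ E → JB n (fun y => hh σ (p, y)) y (B * y.1) := by
  let K1 : Set X3 := Metric.closedBall 0 Γ ×ˢ Metric.closedBall 0 (1 / 2)
  let K : Set (Pa × ℝ × Y2) := (K1 ×ˢ K1 ×ˢ Metric.closedBall 0 Γ) ×ˢ {1} ×ˢ Metric.closedBall 0 E
  have k1 : IsCompact K1 := (isCompact_closedBall _ _).prod (isCompact_closedBall _ _)
  have k : IsCompact K := (k1.prod (k1.prod (isCompact_closedBall _ _))).prod
    (isCompact_singleton.prod (isCompact_closedBall _ _))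
  have l : ∀ θ ∈ K1, θ.2.1 < 1 ∧ θ.2.2 < 1 := fun θ m => by
    have := mem_closedBall_zero_iff.1 m.2
    constructor <;> linarith [le_abs_self θ.2.1, le_abs_self θ.2.2, norm_fst_le θ.2,
      norm_snd_le θ.2, norm_eq_abs θ.2.1, norm_eq_abs θ.2.2]
  have s : K ⊆ Uo := fun w m => by
    have e : w.2.1 = 1 := m.2.1
    exact ⟨e ▸ (l _ m.1.1).1, e ▸ (l _ m.1.1).2, e ▸ (l _ m.1.2.1).1, e ▸ (l _ m.1.2.1).2⟩
  choose B b0 hB using fun σ => P354YI.ex_jb n k fun w m => hh_cd σ (s m)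
  refine ⟨n.factorial * (B true + B false), by have := b0 true; have := b0 false; positivity,
    fun σ p y hp h1 h2 h3 => ?_⟩
  have r0 : 0 < y.1 := by linarith
  have g : ∀ θ : X3, ‖θ‖ ≤ Γ → sc y.1 θ ∈ K1 := fun θ m =>
    ⟨mem_closedBall_zero_iff.2 ((norm_fst_le θ).trans m), mem_closedBall_zero_iff.2 (by
      rw [show (sc y.1 θ).2 = y.1⁻¹ • θ.2 by simp [sc, div_eq_inv_mul, Prod.ext_iff], norm_smul,
        norm_inv, norm_of_nonneg r0.le, inv_mul_le_iff₀ r0]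
      linarith [norm_snd_le θ])⟩
  have g1 := (norm_fst_le p).trans hp
  have g2 := ((norm_fst_le p.2).trans (norm_snd_le p)).trans hp
  let L : ℝ × Y2 →L[ℝ] Pa × ℝ × Y2 := (ContinuousLinearMap.inr ℝ _ _).comp
    ((y.1⁻¹ • ContinuousLinearMap.fst ℝ ℝ Y2).prod (ContinuousLinearMap.snd ℝ ℝ Y2))
  have hL : ‖L‖ ≤ 1 := L.opNorm_le_bound zero_le_one fun v => by
    have := mul_le_mul (inv_le_one_of_one_le₀ h2) (norm_fst_le v) (norm_nonneg _) zero_le_one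
    refine max_le (by simp [L]) (max_le ?_ ((norm_snd_le v).trans (one_mul _).ge))
    exact (norm_mul_le y.1⁻¹ v.1).trans (by rwa [norm_of_nonneg (inv_pos.2 r0).le])
  let f : ℝ × Y2 → Pa × ℝ × Y2 := fun x => ((sc y.1 p.1, sc y.1 p.2.1, p.2.2), x.1 / y.1, x.2)
  have m : f y ∈ K := ⟨⟨g _ g1, g _ g2, mem_closedBall_zero_iff.2
    (((norm_snd_le p.2).trans (norm_snd_le p)).trans hp)⟩, div_self r0.ne',
      mem_closedBall_zero_iff.2 h3⟩
  have jf : JD n f y 1 := ((((JD.const ((sc y.1 p.1, sc y.1 p.2.1, p.2.2), 0)).add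
    (JD.lin L)).mono (by linarith))).congr (.of_forall fun x => by
      simp [f, L, div_eq_inv_mul])
  have j1 : JB n (hh σ) (f y) (B true + B false) :=
    ⟨.of_on (fun w m => (hh_cd σ m).contDiffWithinAt) uo_open (s m), fun i hi =>
      (hB σ _ m i hi).trans (by have := b0 true; have := b0 false; cases σ <;> linarith)⟩
  refine (((j1.comp jf le_rfl).clm (y.1 • ContinuousLinearMap.id ℝ X)).mono ?_).congr ?_
  · rw [one_pow, mul_one, mul_comm]
    have := j1.nonneg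
    gcongr
    rw [norm_smul, norm_of_nonneg r0.le]
    exact mul_le_of_le_one_right r0.le ContinuousLinearMap.norm_id_le
  · have u : (p, y) ∈ Uo := by
      obtain ⟨a, b⟩ := l _ (g _ g1)
      obtain ⟨c, d⟩ := l _ (g _ g2)
      exact ⟨(div_lt_one r0).1 a, (div_lt_one r0).1 b, (div_lt_one r0).1 c, (div_lt_one r0).1 d⟩
    filter_upwards [(by fun_prop : Continuous fun x : ℝ × Y2 => (p, x)).continuousAt.eventually
      (uo_open.eventually_mem u)] with x ⟨a, b, c, d⟩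
    simp only [f, hh, nn, _root_.smul_apply, ContinuousLinearMap.id_apply, smul_smul,
      yr_sc r0, lg_sc r0 a b, lg_sc r0 c d]

theorem pdl_le {c : ℝ} {z : X3} (α : List (Fin 3)) : ∀ {n : ℕ} {f : X3 → ℝ}, JB n f z c →
    α.length ≤ n → |pdl α f z| ≤ c := by
  induction α with
  | nil => exact fun h _ => h.zero
  | cons j α ih =>
    intro n f h hn
    obtain ⟨m, rfl⟩ : ∃ m, n = m + 1 := ⟨n - 1, by simp at hn; omega⟩
    refine ih (n := m) ((h.jd.fderiv.clm (ContinuousLinearMap.apply ℝ ℝ (e j))).mono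
      (mul_le_of_le_one_left h.nonneg ?_)) (by simpa using hn)
    refine ContinuousLinearMap.opNorm_le_bound _ zero_le_one fun A => (A.le_opNorm _).trans ?_
    rw [mul_comm]
    fin_cases j <;> simp [e, Prod.norm_def]

/-! ### The determinant -/

theorem line_d {V : Type} [NormedAddCommGroup V] [NormedSpace ℝ V] {j : X3 → V} {z : X3}
    (hj : DifferentiableAt ℝ j z) (v : X3) : Tendsto (fun t : ℝ => z + t • v) (𝓝 0) (𝓝 z) ∧
    Tendsto (fun t : ℝ => t⁻¹ • (j (z + t • v) - j z)) (𝓝[>] 0) (𝓝 (fderiv ℝ j z v)) := by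
  have c : HasDerivAt (fun t : ℝ => z + t • v) v 0 := by
    simpa using ((hasDerivAt_id (0 : ℝ)).smul_const v).const_add z
  have d : HasDerivAt (fun t : ℝ => j (z + t • v)) (fderiv ℝ j z v) 0 :=
    HasFDerivAt.comp_hasDerivAt 0 (f := fun t : ℝ => z + t • v) (by simpa using hj.hasFDerivAt) c
  exact ⟨by simpa using c.continuousAt.tendsto, by simpa using d.tendsto_slope_zero_right⟩

theorem low {j : X3 → X} {z : X3} {Λ : ℝ} (hj : DifferentiableAt ℝ j z)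
    (h : ∀ᶠ x in 𝓝 z, ‖x - z‖ ≤ Λ * ‖j x - j z‖) (v : X3) : ‖v‖ ≤ Λ * ‖fderiv ℝ j z v‖ := by
  obtain ⟨c, d⟩ := line_d hj v
  refine ge_of_tendsto (d.norm.const_mul Λ) ?_
  filter_upwards [self_mem_nhdsWithin, mem_nhdsWithin_of_mem_nhds (c.eventually h)] with t t0 k
  have t1 : 0 < |t| := abs_pos.2 (ne_of_gt t0)
  simp only [add_sub_cancel_left, norm_smul, norm_eq_abs] at k
  rw [norm_smul, norm_inv, norm_eq_abs, mul_left_comm, le_inv_mul_iff₀ t1]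
  exact k

theorem lim_le {f : X3 → ℝ} {g : X3 → X} {z ξ : X3} {l : ℝ} (hf : DifferentiableAt ℝ f z)
    (hg : DifferentiableAt ℝ g z) (h : ∀ᶠ x in 𝓝 z, x.1 ≤ z.1 → f x ≤ f z + l * ‖g x - g z‖)
    (hξ : ξ.1 ≤ 0) : fderiv ℝ f z ξ ≤ l * ‖fderiv ℝ g z ξ‖ := by
  obtain ⟨c, d⟩ := line_d hf ξ
  refine le_of_tendsto_of_tendsto d ((line_d hg ξ).2.norm.const_mul l) ?_
  filter_upwards [self_mem_nhdsWithin, mem_nhdsWithin_of_mem_nhds (c.eventually h)] with t t0 k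
  have t1 : 0 < t := t0
  have := k (by simpa using mul_nonpos_of_nonneg_of_nonpos t1.le hξ)
  rw [norm_smul, norm_inv, norm_of_nonneg t1.le, mul_left_comm, smul_eq_mul]
  exact mul_le_mul_of_nonneg_left (by linarith) (inv_pos.2 t1).le

theorem mono_of {j : X3 → X} {z ξ : X3} {Λ l : ℝ} (hj : DifferentiableAt ℝ j z) (h0 : j z ≠ 0)
    (a : ∀ v, ‖v‖ ≤ Λ * ‖fderiv ℝ j z v‖) (hl : 0 < l) (h : ∀ᶠ x in 𝓝 z, x.1 ≤ z.1 →
      ‖j x‖ ≤ ‖j z‖ + l / 2 * ‖P354XP.dir (j x) - P354XP.dir (j z)‖) (hξ : ξ ≠ 0)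
    (k : l * ‖fderiv ℝ (fun x => P354XP.dir (j x)) z ξ‖ ≤ fderiv ℝ (fun x => ‖j x‖) z ξ) :
    0 < ξ.1 := by
  have d1 := hj.norm ℝ h0
  have d2 : DifferentiableAt ℝ (fun x => P354XP.dir (j x)) z :=
    (d1.inv (norm_ne_zero_iff.2 h0)).smul hj
  refine lt_of_not_ge fun m => hξ ?_
  have b := lim_le d1 d2 h m
  have n := norm_nonneg (fderiv ℝ (fun x => P354XP.dir (j x)) z ξ)
  have n0 : ‖fderiv ℝ (fun x => P354XP.dir (j x)) z ξ‖ = 0 := by nlinarith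
  have n1 : fderiv ℝ (fun x => ‖j x‖) z ξ = 0 := by rw [n0] at b k; linarith
  have e : j = fun x => ‖j x‖ • P354XP.dir (j x) := funext fun x => by
    by_cases c : j x = 0
    · simp [c]
    · rw [P354XP.dir, smul_inv_smul₀ (norm_ne_zero_iff.2 c)]
  have f : fderiv ℝ j z ξ = 0 := by
    rw [e, fderiv_fun_smul d1 d2]
    simp [n1, norm_eq_zero.1 n0]
  simpa [f] using a ξ

theorem det_ge {j : X3 → X} {z : X3} {Λ : ℝ} (hj : DifferentiableAt ℝ j z)
    (a : ∀ v, ‖v‖ ≤ Λ * ‖fderiv ℝ j z v‖) : 1 ≤ 6 * Λ ^ 3 * |(P354PU.JG j z).det| := by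
  have b : ∀ (u : Fin 3 → ℝ) i, (u ᵥ* P354PU.JG j z) i = fderiv ℝ j z (u 0, u 1, u 2) i :=
    fun u i => by
      have k : ∀ v, fderiv ℝ (fun w => j w i) z v = fderiv ℝ j z v i := fun v =>
        congrArg (· v) ((EuclideanSpace.proj i : X →L[ℝ] ℝ).hasFDerivAt.comp z hj.hasFDerivAt).fderiv
      have s : ((u 0, u 1, u 2) : X3) = u 0 • e 0 + u 1 • e 1 + u 2 • e 2 := by simp [e]
      simp [P354PU.JG, vecMul, dotProduct, Fin.sum_univ_three, pd, k, s]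
  have c : ∀ (u : Fin 3 → ℝ) i, |u i| ≤ ‖((u 0, u 1, u 2) : X3)‖ := fun u i => by
    fin_cases i <;> simp [Prod.norm_def]
  have d : (P354PU.JG j z).det ≠ 0 := fun k => by
    obtain ⟨u, u0, hu⟩ := Matrix.exists_vecMul_eq_zero_iff.2 k
    have : fderiv ℝ j z (u 0, u 1, u 2) = 0 := by ext i; rw [← b, hu]; rfl
    exact u0 (funext fun i => abs_nonpos_iff.1 ((c u i).trans ((a _).trans (by simp [this]))))
  have f := Matrix.det_le (A := (P354PU.JG j z)⁻¹) (abv := AbsoluteValue.abs) (x := Λ) fun i k => by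
    have : fderiv ℝ j z ((P354PU.JG j z)⁻¹ i 0, (P354PU.JG j z)⁻¹ i 1, (P354PU.JG j z)⁻¹ i 2) =
        EuclideanSpace.single i 1 := by
      ext l
      rw [← b, ← Matrix.mul_apply_eq_vecMul, Matrix.nonsing_inv_mul _ (Ne.isUnit d)]
      simp [Matrix.one_apply, eq_comm]
    exact (c _ k).trans ((a _).trans (by simp [this]))
  simp only [AbsoluteValue.abs_apply, Matrix.det_nonsing_inv, Ring.inverse_eq_inv', abs_inv,
    Fintype.card_fin, nsmul_eq_mul] at f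
  rw [inv_le_iff_one_le_mul₀ (abs_pos.2 d)] at f
  simpa [Nat.factorial] using f

end Vale.Agent.P354UR.Bt
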