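import Vale.Agent.P354UR.Bot1

/-!
The chart of the initial slice: Lipschitz estimates.
-/

open scoped ContDiff
open Set Real Filter Topology Matrix

noncomputable section

namespace Vale.Agent.P354UR.Bt

open Vale.Agent.P354H (X3)
open Vale.Agent.P354I (X rm rp)
open Vale.Agent.P354E (stv sg sg_sq st_0 st_1 st_2 st_den)
open Vale.Agent.P354XE (Par)
open Vale.Agent.P354XP (dir)
open Vale.Agent.P354YJ (rz)
open Vale.Agent.P354YW (nsq rz_norm)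
open Vale.Agent.P354XA (hor)
open Vale.Agent.P354SA (Y2 Sl2 Wd MON)

variable {θ : X3} {Γ T E x y : ℝ} {p : Pa} {σ : Bool} {u v : ℝ × Y2}

theorem log_lip {m : ℝ} (hm : 0 < m) (hx : m ≤ x) (hy : m ≤ y) : |log x - log y| ≤ |x - y| / m := by
  have k : ∀ x y, m ≤ x → m ≤ y → log x - log y ≤ |x - y| / m := fun x y hx hy => by
    have y0 := hm.trans_le hy
    rw [← log_div (hm.trans_le hx).ne' y0.ne']
    refine (log_le_sub_one_of_pos (div_pos (hm.trans_le hx) y0)).trans ?_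
    rw [div_sub_one y0.ne']
    exact (div_le_div_of_nonneg_right (le_abs_self _) y0.le).trans (by gcongr)
  exact abs_sub_le_iff.2 ⟨k x y hx hy, abs_sub_comm x y ▸ k y x hy hx⟩

theorem th_bd (h : ‖θ‖ ≤ Γ) : |θ.1| ≤ Γ ∧ |θ.2.1| ≤ Γ ∧ |θ.2.2| ≤ Γ :=
  ⟨(norm_fst_le θ).trans h, ((norm_fst_le θ.2).trans (norm_snd_le θ)).trans h,
    ((norm_snd_le θ.2).trans (norm_snd_le θ)).trans h⟩

theorem lg_lip (h : ‖θ‖ ≤ Γ) (hT : 0 < T) (h1 : 8 * Γ ≤ T) (hx : 7 / 8 * T ≤ x)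
    (hy : 7 / 8 * T ≤ y) : |lg θ x - lg θ y| ≤ 3 * (Γ * |x - y| / T) := by
  obtain ⟨a, b, c⟩ := th_bd h
  have k : ∀ s, |s| ≤ Γ → |log (x - s) - log (y - s)| ≤ 4 / 3 * (|x - y| / T) := fun s m => by
    have := le_abs_self s
    refine (log_lip (m := 3 / 4 * T) (by positivity) (by linarith) (by linarith)).trans_eq ?_
    rw [sub_sub_sub_cancel_right]
    field_simp
  have e : lg θ x - lg θ y = θ.1 * ((log (x - θ.2.1) - log (y - θ.2.1)) -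
    (log (x - θ.2.2) - log (y - θ.2.2))) := by simp only [lg]; ring
  have n : 0 ≤ |x - y| / T := by positivity
  rw [e, abs_mul, mul_div_assoc]
  refine (mul_le_mul a ((abs_sub _ _).trans (add_le_add (k _ b) (k _ c))) (abs_nonneg _)
    ((abs_nonneg _).trans a)).trans ?_
  nlinarith [mul_nonneg ((abs_nonneg _).trans a) n]

theorem yr_bd (h : ‖θ‖ ≤ Γ) (hx : Γ ≤ x) : x - Γ ≤ yr θ x ∧ yr θ x ≤ x + Γ := by
  obtain ⟨-, b, c⟩ := th_bd h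
  obtain ⟨b1, b2⟩ := abs_le.1 b
  obtain ⟨c1, c2⟩ := abs_le.1 c
  have s1 : √(x - Γ) ≤ √(x - θ.2.1) := sqrt_le_sqrt (by linarith)
  have s2 : √(x - Γ) ≤ √(x - θ.2.2) := sqrt_le_sqrt (by linarith)
  have s3 := sq_sqrt (show 0 ≤ x - Γ by linarith)
  have s4 := sq_sqrt (show 0 ≤ x - θ.2.1 by linarith)
  have s5 := sq_sqrt (show 0 ≤ x - θ.2.2 by linarith)
  have s6 := sqrt_nonneg (x - Γ)
  rw [yr]
  constructor <;> nlinarith [sq_nonneg (√(x - θ.2.1) - √(x - θ.2.2))]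

theorem yr_lip (h : ‖θ‖ ≤ Γ) (hy : 2 * Γ ≤ y) (hx : y ≤ x) :
    (x - y) / 2 ≤ yr θ x - yr θ y ∧ yr θ x - yr θ y ≤ 3 * (x - y) := by
  obtain ⟨a, b, c⟩ := th_bd h
  have g := (abs_nonneg _).trans a
  obtain ⟨b1, b2⟩ := abs_le.1 b
  obtain ⟨c1, c2⟩ := abs_le.1 c
  have s1 : √(y - θ.2.1) ≤ √(x - θ.2.1) := sqrt_le_sqrt (by linarith)
  have s2 : √(y - θ.2.2) ≤ √(x - θ.2.2) := sqrt_le_sqrt (by linarith)
  have s3 := sq_sqrt (show 0 ≤ x - θ.2.1 by linarith)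
  have s4 := sq_sqrt (show 0 ≤ x - θ.2.2 by linarith)
  have s5 := sq_sqrt (show 0 ≤ y - θ.2.1 by linarith)
  have s6 := sq_sqrt (show 0 ≤ y - θ.2.2 by linarith)
  have s7 := sqrt_nonneg (y - θ.2.1)
  have s8 := sqrt_nonneg (y - θ.2.2)
  have t1 : √(x - θ.2.1) ≤ 2 * √(x - θ.2.2) :=
    sqrt_le_iff.2 ⟨by positivity, by rw [mul_pow, s4]; linarith⟩
  have t2 : √(y - θ.2.2) ≤ 2 * √(y - θ.2.1) :=
    sqrt_le_iff.2 ⟨by positivity, by rw [mul_pow, s5]; linarith⟩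
  rw [yr, yr]
  generalize √(x - θ.2.1) = s at *
  generalize √(x - θ.2.2) = t at *
  generalize √(y - θ.2.1) = s' at *
  generalize √(y - θ.2.2) = t' at *
  have u1 := mul_le_mul s1 s2 s8 (s7.trans s1)
  have u2 := mul_le_mul_of_nonneg_right t1 (sub_nonneg.2 s2)
  have u3 := mul_le_mul_of_nonneg_right t2 (sub_nonneg.2 s1)
  have u4 := mul_nonneg s8 (sub_nonneg.2 s2)
  have u5 := mul_nonneg (s7.trans s1) (sub_nonneg.2 s1)
  constructor <;> nlinarith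

theorem rz_sub (c : ℝ) (z z' : X) : rz c z - rz c z' = rz c (z - z') := by
  ext i; fin_cases i <;> simp [rz] <;> ring

theorem rz_lip (c c' : ℝ) {z : X} (h : ‖z‖ = 1) : ‖rz c z - rz c' z‖ ≤ 2 * |c - c'| := by
  have a := sq_le_sq' (abs_le.1 (abs_cos_sub_cos_le c c')).1 (abs_le.1 (abs_cos_sub_cos_le c c')).2
  have b := sq_le_sq' (abs_le.1 (abs_sin_sub_sin_le c c')).1 (abs_le.1 (abs_sin_sub_sin_le c c')).2
  have n := nsq z
  rw [h] at n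
  refine abs_le_of_sq_le_sq' ?_ (by positivity) |>.2
  have e : ‖rz c z - rz c' z‖ ^ 2 =
      ((cos c - cos c') ^ 2 + (sin c - sin c') ^ 2) * (z 0 ^ 2 + z 1 ^ 2) := by
    rw [nsq]; simp [rz]; ring
  rw [e]
  refine (mul_le_mul (add_le_add a b) (show _ ≤ 1 by nlinarith [sq_nonneg (z 2)]) (by positivity)
    (by positivity)).trans ?_
  nlinarith [sq_nonneg |c - c'|]

theorem den_le {η : Y2} (h : ‖η‖ ≤ E) : 1 + η.1 ^ 2 + η.2 ^ 2 ≤ 1 + 2 * E ^ 2 := by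
  have a := abs_le.1 ((norm_fst_le η).trans h)
  have b := abs_le.1 ((norm_snd_le η).trans h)
  nlinarith [sq_le_sq' a.1 a.2, sq_le_sq' b.1 b.2]

theorem stv_lip {η η' : Y2} (h : ‖η‖ ≤ E) (h' : ‖η'‖ ≤ E) :
    ‖η - η'‖ ≤ (1 + 2 * E ^ 2) * ‖stv σ η - stv σ η'‖ := by
  have p1 : 0 < 1 + η.1 ^ 2 + η.2 ^ 2 := by positivity
  have p2 : 0 < 1 + η'.1 ^ 2 + η'.2 ^ 2 := by positivity
  have e : (1 + η.1 ^ 2 + η.2 ^ 2) * (1 + η'.1 ^ 2 + η'.2 ^ 2) * ‖stv σ η - stv σ η'‖ ^ 2 =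
      4 * ((η.1 - η'.1) ^ 2 + (η.2 - η'.2) ^ 2) := by
    rw [nsq]
    simp only [stv, PiLp.sub_apply, st_0, st_1, st_2, ← mul_sub (sg σ), mul_pow (sg σ),
      sq (sg σ), sg_sq]
    field_simp
    ring
  have l := mul_le_mul_of_nonneg_right (mul_le_mul (den_le h) (den_le h') p2.le (by positivity))
    (sq_nonneg ‖stv σ η - stv σ η'‖)
  refine max_le ?_ ?_ <;> refine abs_le_of_sq_le_sq ?_ (by positivity) <;>
    simp only [Prod.fst_sub, Prod.snd_sub] <;>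
    nlinarith [sq_nonneg (η.1 - η'.1), sq_nonneg (η.2 - η'.2)]

/-- The parameters and the range of the arguments. -/
structure Ok (Γ T : ℝ) (p : Pa) : Prop where
  bd : ‖p‖ ≤ Γ
  iso : ∀ z, ‖p.2.2 z‖ = ‖z‖
  one : 1 ≤ Γ
  big : 8 * Γ ≤ T
def In (T E : ℝ) (u : ℝ × Y2) : Prop := 7 / 8 * T ≤ u.1 ∧ u.1 ≤ 9 / 8 * T ∧ ‖u.2‖ ≤ E

namespace Ok

variable (h : Ok Γ T p)
include h

theorem b1 : ‖p.1‖ ≤ Γ := (norm_fst_le p).trans h.bd
theorem b2 : ‖p.2.1‖ ≤ Γ := ((norm_fst_le p.2).trans (norm_snd_le p)).trans h.bd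
theorem T8 : 8 ≤ T := by linarith [h.one, h.big]

theorem yr_mem (hu : In T E u) : 3 / 4 * T ≤ yr p.1 u.1 ∧ yr p.1 u.1 ≤ 3 / 2 * T := by
  have := yr_bd h.b1 (x := u.1) (by linarith [hu.1, h.big, h.one])
  constructor <;> linarith [hu.1, hu.2.1, h.big, h.one]

theorem norm_eq (hu : In T E u) : ‖hh σ (p, u)‖ = yr p.1 u.1 := by
  rw [hh, norm_smul, nn_norm h.iso, mul_one,
    norm_of_nonneg (by linarith [(h.yr_mem hu).1, h.T8])]

theorem dir_eq (hu : In T E u) : dir (hh σ (p, u)) = nn σ p u := by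
  rw [dir, h.norm_eq hu, hh, smul_smul,
    inv_mul_cancel₀ (by linarith [(h.yr_mem hu).1, h.T8]), one_smul]

theorem nn_lip (hu : In T E u) (hv : In T E v) : ‖u.2 - v.2‖ ≤
    (1 + 2 * E ^ 2) * (‖nn σ p u - nn σ p v‖ + 9 * (Γ * |u.1 - v.1| / T)) := by
  refine (stv_lip (σ := σ) hu.2.2 hv.2.2).trans (mul_le_mul_of_nonneg_left ?_ (by positivity))
  have T0 : 0 < T := by linarith [h.T8]
  have a := lg_lip h.b1 T0 h.big hu.1 hv.1
  have b := lg_lip h.b2 T0 h.big hu.1 hv.1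
  have e1 : ‖nn σ p u - nn σ p (u.1, v.2)‖ = ‖stv σ u.2 - stv σ v.2‖ := by
    rw [nn, nn, rz_sub, rz_norm, ← map_sub, h.iso, rz_sub, rz_norm]
  have e2 := rz_lip (-lg p.1 v.1 / 2) (-lg p.1 u.1 / 2)
    (z := p.2.2 (rz (lg p.2.1 v.1) (stv σ v.2))) (by rw [h.iso, rz_norm, stv_norm])
  have e3 : ‖rz (-lg p.1 u.1 / 2) (p.2.2 (rz (lg p.2.1 v.1) (stv σ v.2))) - nn σ p (u.1, v.2)‖ ≤
      2 * |lg p.2.1 v.1 - lg p.2.1 u.1| := by
    rw [nn, rz_sub, rz_norm, ← map_sub, h.iso]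
    exact rz_lip _ _ (stv_norm _ _)
  rw [show -lg p.1 v.1 / 2 - -lg p.1 u.1 / 2 = (lg p.1 u.1 - lg p.1 v.1) / 2 by ring, abs_div,
    abs_two] at e2
  rw [abs_sub_comm] at e3
  have t := norm_sub_le_norm_sub_add_norm_sub (nn σ p u) (nn σ p v) (nn σ p (u.1, v.2))
  have t' := (norm_sub_le_norm_sub_add_norm_sub (nn σ p v) _ (nn σ p (u.1, v.2))).trans
    (add_le_add e2 e3)
  linarith

theorem lip (hv : In T E v) (l : v.1 ≤ u.1) :
    (u.1 - v.1) / 2 ≤ yr p.1 u.1 - yr p.1 v.1 ∧ yr p.1 u.1 - yr p.1 v.1 ≤ 3 * (u.1 - v.1) :=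
  yr_lip h.b1 (by linarith [hv.1, h.big, h.one]) l

theorem anti (hu : In T E u) (hv : In T E v) : |u.1 - v.1| ≤ 2 * ‖hh σ (p, u) - hh σ (p, v)‖ ∧
    ‖u.2 - v.2‖ ≤ (1 + 2 * E ^ 2) * (1 + 18 * Γ) * ‖hh σ (p, u) - hh σ (p, v)‖ := by
  have a := abs_norm_sub_norm_le (hh σ (p, u)) (hh σ (p, v))
  rw [h.norm_eq hu, h.norm_eq hv] at a
  have b : |u.1 - v.1| ≤ 2 * ‖hh σ (p, u) - hh σ (p, v)‖ := by
    obtain ⟨a1, a2⟩ := abs_le.1 a
    rcases le_total v.1 u.1 with l | l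
    · rw [abs_of_nonneg (sub_nonneg.2 l)]; linarith [(h.lip hv l).1]
    · rw [abs_of_nonpos (sub_nonpos.2 l)]; linarith [(h.lip hu l).1]
  refine ⟨b, (h.nn_lip (σ := σ) hu hv).trans ?_⟩
  have y := (h.yr_mem hu).1
  have T8 := h.T8
  have g := h.one
  have c : yr p.1 u.1 * ‖nn σ p u - nn σ p v‖ ≤ 2 * ‖hh σ (p, u) - hh σ (p, v)‖ := by
    rw [← norm_of_nonneg (show 0 ≤ yr p.1 u.1 by linarith), ← norm_smul,
      show yr p.1 u.1 • (nn σ p u - nn σ p v) = hh σ (p, u) - hh σ (p, v) -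
        (yr p.1 u.1 - yr p.1 v.1) • nn σ p v by simp only [hh]; module]
    refine (norm_sub_le _ _).trans ?_
    rw [norm_smul, nn_norm h.iso, mul_one, norm_eq_abs]
    linarith
  have d : Γ * |u.1 - v.1| / T ≤ Γ * (2 * ‖hh σ (p, u) - hh σ (p, v)‖) :=
    (div_le_self (by positivity) (by linarith)).trans (by gcongr)
  rw [mul_assoc]
  refine mul_le_mul_of_nonneg_left ?_ (by positivity)
  nlinarith [norm_nonneg (nn σ p u - nn σ p v)]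

theorem hull (hu : In T E u) (hv : In T E v) {A l : ℝ} (hA : u.1 - v.1 ≤ A * ‖u.2 - v.2‖)
    (A0 : 0 ≤ A) (h1 : 18 * ((1 + 2 * E ^ 2) * Γ * A) ≤ T) (h2 : 6 * ((1 + 2 * E ^ 2) * A) ≤ l) :
    ‖hh σ (p, u)‖ ≤ ‖hh σ (p, v)‖ + l * ‖dir (hh σ (p, u)) - dir (hh σ (p, v))‖ := by
  rw [h.norm_eq hu, h.norm_eq hv, h.dir_eq hu, h.dir_eq hv]
  have n := norm_nonneg (nn σ p u - nn σ p v)
  have T0 : 0 < T := by linarith [h.T8]
  have g := h.one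
  rcases lt_or_ge u.1 v.1 with k | k
  · have := (h.lip hu k.le).1
    have : 0 ≤ l * ‖nn σ p u - nn σ p v‖ := mul_nonneg (le_trans (by positivity) h2) n
    linarith
  have a := h.nn_lip (σ := σ) hu hv
  have b := (h.lip hv k).2
  rw [abs_of_nonneg (sub_nonneg.2 k)] at a
  have c : (1 + 2 * E ^ 2) * (9 * (Γ * (u.1 - v.1) / T)) ≤ ‖u.2 - v.2‖ / 2 := by
    rw [← mul_div_assoc, ← mul_div_assoc, div_le_iff₀ T0]
    have c1 : (1 + 2 * E ^ 2) * (9 * (Γ * (u.1 - v.1))) ≤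
      (1 + 2 * E ^ 2) * (9 * (Γ * (A * ‖u.2 - v.2‖))) := by gcongr
    nlinarith [mul_le_mul_of_nonneg_right h1 (norm_nonneg (u.2 - v.2))]
  have d : A * ‖u.2 - v.2‖ ≤ A * (2 * ((1 + 2 * E ^ 2) * ‖nn σ p u - nn σ p v‖)) :=
    mul_le_mul_of_nonneg_left (by linarith) A0
  nlinarith [mul_le_mul_of_nonneg_right h2 n]

end Ok

theorem pole {q : Par} {ε : ℝ} (h : ∀ i j, |(q.R - 1) i j| < ε) (hp : p.2.2 = rl q)
    (hu : ‖u.2‖ ≤ E) (hε : 3 * ε ≤ (1 + 2 * E ^ 2)⁻¹) :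
    (1 + 2 * E ^ 2)⁻¹ ≤ 1 + sg σ * nn σ p u 2 := by
  obtain ⟨w, hw⟩ : ∃ w, w = rz (lg p.2.1 u.1) (stv σ u.2) := ⟨_, rfl⟩
  have n : ‖w‖ = 1 := by rw [hw, rz_norm, stv_norm]
  have e : nn σ p u 2 = w 2 + ∑ k, (q.R - 1) 2 k * w k := by
    rw [nn, hp, ← hw]
    show ∑ k, q.R 2 k * w k = _
    simp [Fin.sum_univ_three, Matrix.one_apply]
    ring
  have b : |∑ k, (q.R - 1) 2 k * w k| ≤ 3 * ε := by
    refine (Finset.abs_sum_le_sum_abs _ _).trans ((Finset.sum_le_sum (g := fun _ => ε)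
      fun k _ => ?_).trans (by simp))
    rw [abs_mul]
    exact (mul_le_of_le_one_right (abs_nonneg _) (n ▸ PiLp.norm_apply_le w k)).trans (h 2 k).le
  have s : |sg σ| = 1 := by cases σ <;> simp [sg]
  have d : 1 + sg σ * w 2 = 2 / (1 + u.2.1 ^ 2 + u.2.2 ^ 2) := hw ▸ st_den σ u.2
  have l : 2 * (1 + 2 * E ^ 2)⁻¹ ≤ 2 / (1 + u.2.1 ^ 2 + u.2.2 ^ 2) := by
    rw [← div_eq_mul_inv]
    exact div_le_div_of_nonneg_left zero_le_two (by positivity) (den_le hu)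
  have := neg_abs_le (sg σ * ∑ k, (q.R - 1) 2 k * w k)
  rw [abs_mul, s, one_mul] at this
  rw [e, mul_add]
  linarith

theorem par_bd {M a : ℝ} (h : |a| < M) : ∃ ε > 0, ∃ Γ ≥ 1, ∀ M' a', |M' - M| < ε → |a' - a| < ε →
    ‖th M' a'‖ ≤ Γ := by
  have k0 : 0 < (M - |a|) / 2 := by linarith
  obtain ⟨κ, hκ⟩ : ∃ κ, κ = (M - |a|) / 2 := ⟨_, rfl⟩
  rw [← hκ] at k0
  have a0 := abs_nonneg a
  refine ⟨κ / 2, by positivity, 1 + 4 * M + 2 * M / κ, by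
    have : 0 < M := by linarith
    exact le_add_of_le_of_nonneg (by linarith) (by positivity), fun M' a' h1 h2 => ?_⟩
  obtain ⟨b1, b2⟩ := abs_lt.1 h1
  have b3 : |a'| < |a| + κ / 2 := by linarith [abs_sub_abs_le_abs_sub a' a]
  obtain ⟨m0, m1, m2, m3, -⟩ := hor (show |a'| < M' by linarith)
  have d : 0 ≤ 2 * M / κ := div_nonneg (by linarith) k0.le
  have s : κ ≤ √(M' ^ 2 - a' ^ 2) := le_sqrt_of_sq_le (by nlinarith [sq_abs a', abs_nonneg a'])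
  refine max_le ?_ (max_le ?_ ?_) <;> simp only [th, norm_eq_abs]
  · rw [abs_div, abs_mul, abs_two, abs_of_pos (sub_pos.2 m2)]
    refine le_trans ?_ (le_add_of_nonneg_left (by linarith))
    rw [div_le_div_iff₀ (sub_pos.2 m2) k0]
    simp only [rm, rp]
    nlinarith [abs_nonneg a']
  · rw [abs_of_nonneg (by linarith)]; linarith
  · rw [abs_of_nonneg m1]; linarith

theorem wd_eq (a b r : ℝ) : Wd a b r = Ioo a b ×ˢ Metric.ball 0 r := by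
  ext x; simp [Wd]

/-- The labels are Lipschitz functions of the radius and the angle. -/
theorem lab (hM : MON) {C0 P K a b r : ℝ} {ρ : X3 → ℝ} {η : X3 → Y2} (hK : 0 < K) (h0 : 0 ≤ C0)
    (h1 : C0 ^ 2 * (b - a) < 1 / 4) (h : Sl2 C0 P K (Wd a b (r + 1 / 4)) ρ η) {x x' : X3}
    (hx : x ∈ Wd a b r) (hx' : x' ∈ Wd a b r) :
    |x.1 - x'.1| ≤ K * (|ρ x - ρ x'| + 2 * C0 ^ 2 * P * ‖η x - η x'‖) ∧
      ‖x.2 - x'.2‖ ≤ C0 * (‖η x - η x'‖ + C0 * |x.1 - x'.1|) := by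
  have m := hM C0 P K a b r ρ η hK h1 h
  have s : ∀ x ∈ Wd a b r, x ∈ Wd a b (r + 1 / 4) := fun x k => ⟨k.1, k.2.trans (by linarith)⟩
  constructor
  · rw [← inv_mul_le_iff₀ hK]
    rcases le_total x.1 x'.1 with l | l
    · have := m x hx x' hx' l
      rw [abs_of_nonpos (sub_nonpos.2 l), norm_sub_rev]
      linarith [neg_abs_le (ρ x - ρ x')]
    · have := m x' hx' x hx l
      rw [abs_of_nonneg (sub_nonneg.2 l)]
      linarith [le_abs_self (ρ x - ρ x')]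
  · have k : ((x.1, x'.2) : X3) ∈ Wd a b (r + 1 / 4) := ⟨hx.1, (s _ hx').2⟩
    have o : IsOpen (Wd a b (r + 1 / 4)) := wd_eq _ _ _ ▸ isOpen_Ioo.prod Metric.isOpen_ball
    have c : Convex ℝ (Wd a b (r + 1 / 4)) := wd_eq _ _ _ ▸ (convex_Ioo _ _).prod (convex_ball _ _)
    have l := c.norm_image_sub_le_of_norm_fderiv_le (𝕜 := ℝ) (f := η)
      (fun y m => (h.sm.2.contDiffAt (o.mem_nhds m)).differentiableAt (by simp))
      (fun y m => (h.lip y m).1) k (s _ hx')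
    rw [show ‖x' - (x.1, x'.2)‖ = |x.1 - x'.1| by simp [Prod.norm_def, abs_sub_comm]] at l
    exact (h.bil x (s _ hx) _ k rfl).trans (mul_le_mul_of_nonneg_left
      ((norm_sub_le_norm_sub_add_norm_sub _ (η x') _).trans (by linarith)) h0)

end Vale.Agent.P354UR.Bt
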