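import Vale.Agent.P354UR.EDefs
import Vale.Agent.P354UR.Fr0
import Vale.Agent.P354LF.Lift

/-!
Basic facts about rollings from the slice t = 0.
-/

open scoped ContDiff
open Set Filter Topology

namespace Vale.Agent.P354UR

open Vale.Agent.P354n (R4 mink)
open Vale.Agent.P354R (Met)
open Vale.Agent.P354RC (bs cv sum_bs)
open Vale.Agent.P354XD (tb rp_tb)
open Vale.Agent.P354H (X3)
open Vale.Agent.P354I (X Dat pd)
open Vale.Agent.P354XE
open Vale.Agent.P354XU (L4 Jt Rol Fr Adp th)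
open Vale.Agent.P354YM

variable {g : Tw} {D Ω : Set R4} {Xf c b : R4 → R4} {d : Dat} {E : R4 → L4} {p : R4} {x : X3}

theorem mink_eT : mink eT eT = -1 := by
  simp [mink, eT, P354n.cu, P354n.cv, P354n.c1, P354n.c2]

theorem Ro.b0 (R : Ro g D Xf d c Ω b E) (h : (0, x) ∈ Ω) : b (0, x) = (0, x) :=
  (R.st (xs (0, x)) h).1

theorem Ro.ev (R : Ro g D Xf d c Ω b E) (h : (0, x) ∈ Ω) : ∀ᶠ z in 𝓝 x, ((0, z) : R4) ∈ Ω :=
  (Continuous.prodMk_right 0).continuousAt.eventually_mem (R.rol.isOpen.mem_nhds h)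

/-- The first vector of the frame is future directed. -/
theorem Ro.fut (L : Lor g D Xf) (R : Ro g D Xf d c Ω b E) (hp : p ∈ Ω) :
    g (b p) (E p eT) (Xf (b p)) < 0 := by
  have r := rp_tb L.isOpen L.met
  have F := R.rol.toFr
  have l : ContinuousOn (fun s : ℝ => ((s, p.2) : R4)) (uIcc 0 p.1) := by fun_prop
  have cb := F.sb.continuousOn.comp l (R.star p hp)
  have m : MapsTo (b ∘ fun s : ℝ => ((s, p.2) : R4)) (uIcc 0 p.1) D := fun s a =>
    F.maps (R.star p hp s a)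
  have k : ContinuousOn (fun s => tb g (b (s, p.2)) (E (s, p.2) eT) (Xf (b (s, p.2))))
      (uIcc 0 p.1) := ((r.sm.continuousOn.comp cb m).clm_apply
    ((F.sE.continuousOn.comp l (R.star p hp)).clm_apply continuousOn_const)).clm_apply
      (L.cont.comp cb m)
  have z := R.star p hp 0 left_mem_uIcc
  have a := (R.st (xs (0, p.2)) z).2.1
  by_contra! n
  obtain ⟨s, hs, e⟩ := isPreconnected_uIcc.intermediate_value left_mem_uIcc right_mem_uIcc k
    (show 0 ∈ _ from ⟨by rw [← r.eq _ (F.maps z), Ro.b0 R z]; exact a.le,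
      by rw [← r.eq _ (F.maps hp)]; exact n⟩)
  have q := R.star p hp s hs
  have u := F.on _ q eT eT
  rw [mink_eT] at u
  have := pos_perp L (F.maps q) (L.tl _ (F.maps q)) ((r.eq _ (F.maps q) _ _).trans e) fun o => by
    rw [o, (L.met.lin _ (F.maps q) _).map_zero] at u
    norm_num at u
  linarith

/-- The frame maps the future cone of the flat metric to the future cone. -/
theorem Ro.cone (L : Lor g D Xf) (R : Ro g D Xf d c Ω b E) (hp : p ∈ Ω) {u : R4}
    (h : mink u u ≤ 0) (h0 : 0 < u.1) : g (b p) (E p u) (Xf (b p)) < 0 := by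
  have F := R.rol.toFr
  have m := F.maps hp
  obtain ⟨w, hw⟩ := (Fr.inv F L.met hp).surjective (Xf (b p))
  have a := Ro.fut L R hp
  have t := L.tl _ m
  rw [← hw, F.on p hp] at a t ⊢
  obtain ⟨u0, u1, u2, u3⟩ := u
  obtain ⟨w0, w1, w2, w3⟩ := w
  simp only [mink, eT, P354n.cu, P354n.cv, P354n.c1, P354n.c2, Prod.fst_zero, Prod.snd_zero]
    at a t h h0 ⊢
  have w : 0 < w0 := by linarith
  by_contra! n
  have k : u0 * w0 ≤ u1 * w1 + u2 * w2 + u3 * w3 := by linarith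
  have := mul_pos h0 w
  nlinarith [sq_nonneg (u1 * w2 - u2 * w1), sq_nonneg (u1 * w3 - u3 * w1),
    sq_nonneg (u2 * w3 - u3 * w2), mul_self_le_mul_self this.le k, mul_pos h0 h0,
    mul_le_mul_of_nonneg_right (show u1 * u1 + u2 * u2 + u3 * u3 ≤ u0 * u0 by linarith)
      (show 0 ≤ w1 * w1 + w2 * w2 + w3 * w3 by nlinarith),
    mul_lt_mul_of_pos_left (show w1 * w1 + w2 * w2 + w3 * w3 < w0 * w0 by linarith) (mul_pos h0 h0)]

theorem Ro.ft (L : Lor g D Xf) (R : Ro g D Xf d c Ω b E) (hp : p ∈ Ω) {u : R4}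
    (h : mink u u < 0) (h0 : 0 < u.1) : Ft g Xf (b p) (E p u) :=
  ⟨(R.rol.on p hp u u).trans_lt h, Ro.cone L R hp h.le h0⟩

/-- The differential along the slice. -/
theorem Ro.d1 (R : Ro g D Xf d c Ω b E) (h : (0, x) ∈ Ω) (v : X3) :
    fderiv ℝ b (0, x) (0, v) = (0, v) := by
  have a := (((Fr.atb R.rol.toFr h).differentiableAt (by simp)).hasFDerivAt.comp x
    (hasFDerivAt_prodMk_right 0 x)).congr_of_eventuallyEq
      ((Ro.ev R h).mono fun z k => (Ro.b0 R k).symm)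
  exact congrArg (· v) (a.unique (hasFDerivAt_prodMk_right 0 x))

theorem pd_pt (i : Fin 3) (y : X) : pd i (pt 0) y = bs i.succ := by
  have : HasFDerivAt (pt 0) ((0 : X →L[ℝ] ℝ).prod ((EuclideanSpace.proj 0).prod
      ((EuclideanSpace.proj 1).prod (EuclideanSpace.proj (𝕜 := ℝ) (2 : Fin 3))))) y :=
    (hasFDerivAt_const _ _).prodMk ((EuclideanSpace.proj (𝕜 := ℝ) (0 : Fin 3)).hasFDerivAt.prodMk
      ((EuclideanSpace.proj (𝕜 := ℝ) (1 : Fin 3)).hasFDerivAt.prodMk
        (EuclideanSpace.proj (𝕜 := ℝ) (2 : Fin 3)).hasFDerivAt))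
  rw [pd, this.fderiv]
  fin_cases i <;> simp [bs, P354I.ee]

/-- The coframe on the slice. -/
theorem Ro.th0 (M : Met g D) (R : Ro g D Xf d c Ω b E) (h : (0, x) ∈ Ω) (i : Fin 3) :
    th b E (0, x) (bs i.succ) =
      pt 0 (WithLp.toLp 2 fun k => P354XU.chol (d.h (xs (0, x))) k i) := by
  have a := (R.st (xs (0, x)) h).2.2 i
  rw [pd_pt] at a
  rw [th, ContinuousLinearMap.comp_apply, bs_succ, Ro.d1 R h, ← bs_succ, a]
  exact (Fr.inv R.rol.toFr M h).inverse_apply_self _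

theorem Ro.adp (M : Met g D) (R : Ro g D Xf d c Ω b E) : Adp Ω b E := fun x h v => by
  have z : ∀ i : Fin 3, (th b E (0, x) (bs i.succ)).1 = 0 := fun i => by rw [Ro.th0 M R h]; rfl
  rw [← sum_bs (0, v), Fin.sum_univ_succ, show cv 0 (0, v) = 0 from rfl]
  simp [Prod.fst_sum, z]

/-- The differential in terms of the coframe. -/
theorem Fr.db (F : Fr g D Ω b E) (M : Met g D) (hp : p ∈ Ω) (u : R4) :
    fderiv ℝ b p u = E p (th b E p u) := ((Fr.inv F M hp).self_apply_inverse _).symm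

end Vale.Agent.P354UR
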