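import Vale.Agent.P354UR.Emb3
import Vale.Agent.P354LC.Ipl
import Vale.Agent.P354TS.Inf
import Vale.Agent.P354DT.Dcl
import Vale.Agent.P354YS.Te

/-!
EMB from CSL.
-/

namespace Vale.Agent.P354UR

theorem emb_of (h : CSL) : P354YM.EMB :=
  emb h P354LC.ipl P354LC.jet P354TS.inf P354DT.dcl P354YS.te

end Vale.Agent.P354UR
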