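import Vale.Agent.P354UR.EBase
import Vale.Agent.P354LC.Jet

/-!
EMB, part 1: a priori bounds along the lines of a rolling.
-/

open scoped ContDiff
open Set Filter Topology

namespace Vale.Agent.P354UR

open Vale.Agent.P354n (R4 mink)
open Vale.Agent.P354R (Met)
open Vale.Agent.P354XD (tb rp_tb)
open Vale.Agent.P354I (X Dat)
open Vale.Agent.P354XE
open Vale.Agent.P354XU (L4 Jt)
open Vale.Agent.P354YM
open Vale.Agent.P354YI (GM GM_ap)

theorem gm_bd (B : ℝ) {c0 : ℝ} (h : 0 < c0) : ∃ G ≥ 0, ∀ g D x, IsOpen D → Met g D → x ∈ D →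
    Mb 1 B c0 g x → ‖GM (tb g) x‖ ≤ G := by
  obtain ⟨G, G0, hG⟩ := (P354LC.oj_gm (k := 0) (J := {j : Tw × Set R4 × R4 //
    (IsOpen j.2.1 ∧ Met j.1 j.2.1 ∧ j.2.2 ∈ j.2.1) ∧ Mb 1 B c0 j.1 j.2.2}) h (fun j => j.2.1)
    fun j => j.2.2).val
  exact ⟨G, G0, fun g D x a b c d => by simpa using hG ⟨(g, D, x), ⟨a, b, c⟩, d⟩⟩

theorem cross {f f' : ℝ → ℝ} {t : ℝ} (hf : ∀ s ∈ Icc 0 t, HasDerivAt f (f' s) s) (h0 : f 0 = 0)
    (h : ∀ s ∈ Icc 0 t, f s = 0 → 0 < f' s) : ∀ s ∈ Ioc 0 t, 0 < f s := fun s hs => by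
  have a := @image_le_of_deriv_right_lt_deriv_boundary' (fun _ => 0) (fun _ => 0) 0 t
    continuousOn_const (fun x _ => hasDerivWithinAt_const _ _ _) f f' h0.ge
    (fun x hx => (hf x hx).continuousAt.continuousWithinAt)
    (fun x hx => (hf x (Ico_subset_Icc_self hx)).hasDerivWithinAt)
    fun x hx e => h x (Ico_subset_Icc_self hx) e.symm
  have m := Ioc_subset_Icc_self hs
  refine (a m).lt_of_ne fun e => ?_
  obtain ⟨u, u1, u2⟩ := ((P354LF.lt_left (hf s m) (h s m e.symm)).and (Ioo_mem_nhdsLT hs.1)).exists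
  exact (u1.trans_eq e.symm).not_ge (a ⟨u2.1.le, u2.2.le.trans hs.2⟩)

variable {g : Tw} {D Ω : Set R4} {Xf c b : R4 → R4} {d : Dat} {E : R4 → L4} {p : R4}

theorem Ro.seg (R : Ro g D Xf d c Ω b E) (hp : p ∈ Ω) {s : ℝ} (hs : s ∈ Icc 0 p.1) :
    (s, p.2) ∈ Ω := R.star p hp s (Icc_subset_uIcc hs)

theorem Ro.der (R : Ro g D Xf d c Ω b E) {s : ℝ} (hs : (s, p.2) ∈ Ω) :
    HasDerivAt (fun s => b (s, p.2)) (E (s, p.2) (c (s, p.2))) s :=
  R.rol.db _ hs ▸ line_d ((Fr.atb R.rol.toFr hs).differentiableAt (by simp))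

theorem ft_ne (M : Met g D) (hp : p ∈ D) {w : R4} (h : g p w (Xf p) < 0) : w ≠ 0 := fun e => by
  rw [e, M.symm _ hp, (M.lin _ hp _).map_zero] at h
  exact h.false

/-- The bound for the frame. -/
theorem frb (B : ℝ) {c0 : ℝ} (h : 0 < c0) (F0 : ℝ) : ∃ F ≥ 0, ∀ g D Xf d c Ω b E τ (p : R4),
    Lor g D Xf → Ro g D Xf d c Ω b E → p ∈ Ω → 0 ≤ p.1 → (∀ s ∈ Icc 0 p.1,
      Tl c (s, p.2) ∧ UB 1 B c0 g Xf τ (b (s, p.2))) → ‖E (0, p.2)‖ ≤ F0 → ‖E p‖ ≤ F := by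
  obtain ⟨G, G0, hG⟩ := gm_bd B h
  refine ⟨(|F0| + 1) * Real.exp ((G / c0 + 1) * (B - -B)), by positivity,
    fun g D Xf d c Ω b E τ p L R hp p0 H h0 => ?_⟩
  have dτ : ∀ s ∈ Icc 0 p.1, HasDerivAt (fun s => (|F0| + 1) * Real.exp ((G / c0 + 1) *
      (τ (b (s, p.2)) - -B))) _ s := fun s hs =>
    (((((H s hs).2.sm.1.differentiableAt (by simp)).hasFDerivAt.comp_hasDerivAt s
      (Ro.der R (Ro.seg R hp hs))).sub_const _).const_mul _).exp.const_mul _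
  have dE := fun s hs => line_d ((Fr.atE R.rol.toFr (Ro.seg R hp (s := s) hs)).differentiableAt
    (by simp))
  have t : ∀ s ∈ Icc 0 p.1, |τ (b (s, p.2))| ≤ B := fun s hs => by
    simpa using (H s hs).2.sm.2 0 (by simp)
  have a := image_norm_le_of_norm_deriv_right_lt_deriv_boundary'
    (B := fun s => (|F0| + 1) * Real.exp ((G / c0 + 1) * (τ (b (s, p.2)) - -B)))
    (fun s hs => (dE s hs).continuousAt.continuousWithinAt)
    (fun s hs => (dE s (Ico_subset_Icc_self hs)).hasDerivWithinAt) (h0.trans (le_trans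
      ((le_abs_self _).trans (le_add_of_nonneg_right zero_le_one)) (le_mul_of_one_le_right
        (by positivity) (Real.one_le_exp (mul_nonneg (by positivity)
          (sub_nonneg.2 (abs_le.1 (t 0 ⟨le_rfl, p0⟩)).1))))))
    (fun s hs => (dτ s hs).continuousAt.continuousWithinAt)
    (fun s hs => (dτ s (Ico_subset_Icc_self hs)).hasDerivWithinAt) (fun s hs e => ?_)
    (right_mem_Icc.2 p0)
  · refine a.trans ?_
    gcongr
    exact (abs_le.1 (t _ (right_mem_Icc.2 p0))).2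
  have m := Ico_subset_Icc_self hs
  have q := Ro.seg R hp m
  obtain ⟨a1, a2⟩ := H s m
  have f := Ro.ft L R q a1.1 a1.2
  have a3 := a2.cone _ f.1.le f.2.le
  have a4 := norm_pos_iff.2 (ft_ne L.met (R.rol.maps q) f.2)
  have a5 : ‖fderiv ℝ E (s, p.2) eT‖ ≤ G * ‖E (s, p.2) (c (s, p.2))‖ * ‖E (s, p.2)‖ := by
    refine ContinuousLinearMap.opNorm_le_bound _ (by positivity) fun v => ?_
    have := R.rol.dE _ q v
    rw [Pi.zero_apply, zero_apply, map_zero, add_eq_zero_iff_eq_neg, ← GM_ap] at this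
    rw [this, norm_neg, mul_assoc]
    refine ((GM _ _).le_opNorm₂ _ _).trans ?_
    gcongr
    exacts [hG g D _ L.isOpen L.met (R.rol.maps q) ⟨a2.bd, a2.nd⟩, (E _).le_opNorm v]
  have a6 : 0 < ‖E (s, p.2)‖ := e ▸ by positivity
  have a7 : G * ‖E (s, p.2) (c (s, p.2))‖ ≤
      G / c0 * fderiv ℝ τ (b (s, p.2)) (E (s, p.2) (c (s, p.2))) := by
    rw [div_mul_eq_mul_div, le_div_iff₀ h, mul_assoc, mul_comm _ c0]
    gcongr
  rw [← mul_assoc, ← e, mul_comm ‖_‖]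
  exact a5.trans_lt (mul_lt_mul_of_pos_right (by nlinarith [mul_pos h a4]) a6)

/-- The lines stay in C. -/
theorem stay (L : Lor g D Xf) (R : Ro g D Xf d c Ω b E) {C0 C : Set R4} (hC : IsClosed C)
    {r h F S : ℝ} (hr : ∀ p ∈ C0, ∀ x, dist x p ≤ r → 0 ≤ x.1 → x ∈ C)
    (hT : ∀ q ∈ C, q.1 = 0 → Tm g Xf (fun x => x.1) q) (hp : p ∈ Ω) (p0 : 0 ≤ p.1)
    (hc : ∀ s ∈ Icc 0 p.1, Tl c (s, p.2) ∧ ‖c (s, p.2)‖ ≤ S)
    (hF : ∀ s ∈ Icc 0 p.1, (∀ u ∈ Icc 0 s, b (u, p.2) ∈ C) → ‖E (s, p.2)‖ ≤ F) (F0 : 0 ≤ F * S)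
    (sm : F * S * h < r) (h0 : (0, p.2) ∈ C)
    (H : ∀ u ∈ Icc 0 p.1, ∃ s ∈ Icc 0 u, u - s ≤ h ∧ b (s, p.2) ∈ C0) :
    (∀ s ∈ Icc 0 p.1, b (s, p.2) ∈ C) ∧ (0 < p.1 → 0 < (b p).1) := by
  have D := fun s hs => Ro.der R (Ro.seg R hp (s := s) hs)
  have z := Ro.b0 R (Ro.seg R hp ⟨le_rfl, p0⟩)
  have pos : ∀ s ∈ Icc 0 p.1, b (s, p.2) ∈ C → (b (s, p.2)).1 = 0 →
      0 < (E (s, p.2) (c (s, p.2))).1 := fun s hs m e => by
    have q := Ro.seg R hp hs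
    have f := Ro.ft L R q (hc s hs).1.1 (hc s hs).1.2
    simpa [fderiv_fst] using P354XJ.tm_pos L (R.rol.maps q) (hT _ m e)
      (ft_ne L.met (R.rol.maps q) f.2) f.1.le f.2.le
  have D1 : ∀ s ∈ Icc 0 p.1, HasDerivAt (fun s => (b (s, p.2)).1) (E (s, p.2) (c (s, p.2))).1 s :=
    fun s hs => (D s hs).fst
  have cr : ∀ t ∈ Icc 0 p.1, (∀ u ∈ Icc 0 t, b (u, p.2) ∈ C) → 0 < t → 0 < (b (t, p.2)).1 :=
    fun t ht m t0 => cross (fun s hs => D1 s ⟨hs.1, hs.2.trans ht.2⟩) (by rw [z])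
      (fun s hs => pos s ⟨hs.1, hs.2.trans ht.2⟩ (m s hs)) t ⟨t0, le_rfl⟩
  have key : Icc 0 p.1 ⊆ (fun s => b (s, p.2)) ⁻¹' C := by
    refine IsClosed.Icc_subset_of_forall_mem_nhdsGT_of_Icc_subset (inter_comm _ _ ▸
      ContinuousOn.preimage_isClosed_of_isClosed (fun s hs => (D s hs).continuousAt.continuousWithinAt)
        isClosed_Icc hC) (by simpa only [mem_preimage, z] using h0) fun u hu m => ?_
    have hu' := Ico_subset_Icc_self hu
    obtain ⟨s, hs, s1, s2⟩ := H u hu'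
    have i : ∀ t ∈ Icc s u, t ∈ Icc 0 p.1 := fun t ht => ⟨hs.1.trans ht.1, ht.2.trans hu'.2⟩
    have a := (convex_Icc s u).norm_image_sub_le_of_norm_hasDerivWithin_le (C := F * S)
      (fun t ht => (D t (i t ht)).hasDerivWithinAt) (fun t ht => ((E _).le_opNorm _).trans
        (mul_le_mul (hF t (i t ht) fun w hw => m ⟨hw.1, hw.2.trans ht.2⟩) (hc t (i t ht)).2
          (norm_nonneg _) ((norm_nonneg _).trans
            (hF t (i t ht) fun w hw => m ⟨hw.1, hw.2.trans ht.2⟩))))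
      (left_mem_Icc.2 hs.2) (right_mem_Icc.2 hs.2)
    have a1 : dist (b (u, p.2)) (b (s, p.2)) < r := by
      rw [dist_eq_norm]
      refine (a.trans (mul_le_mul_of_nonneg_left ?_ F0)).trans_lt sm
      rwa [Real.norm_of_nonneg (sub_nonneg.2 hs.2)]
    have a2 : ∀ᶠ t in 𝓝[>] u, 0 ≤ (b (t, p.2)).1 := by
      rcases hu.1.eq_or_lt with rfl | u0
      · have := (P354XJ.sign_of_deriv (I := univ) (D1 0 hu').hasDerivWithinAt
          (pos 0 hu' (m ⟨le_rfl, le_rfl⟩) (by rw [z])) (by rw [z])).1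
        rw [univ_inter] at this
        exact this.mono fun _ => le_of_lt
      · exact nhdsWithin_le_nhds (((D1 u hu').continuousAt.eventually
          (lt_mem_nhds (cr u hu' m u0))).mono fun _ => le_of_lt)
    filter_upwards [a2, nhdsWithin_le_nhds (((D u hu').continuousAt.dist
      continuousAt_const).eventually (gt_mem_nhds a1))] with t t1 t2 using hr _ s2 _ t2.le t1
  exact ⟨key, cr _ (right_mem_Icc.2 p0) key⟩

end Vale.Agent.P354UR
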