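import Vale.Agent.P354UR.Emb1

/-!
EMB, part 2: the time function in the rolling chart, and the rolling of the target.
-/

open scoped ContDiff
open Set Filter Topology

namespace Vale.Agent.P354UR

open Vale.Agent.P354n (R4 mink)
open Vale.Agent.P354XD (tb rp_tb)
open Vale.Agent.P354I (X Dat)
open Vale.Agent.P354H (X3)
open Vale.Agent.P354XE
open Vale.Agent.P354XU (L4 Jt Slc IndAt th)
open Vale.Agent.P354YM

variable {W Ω : Set R4} {g : Tw} {Xf c Φ Ψ : R4 → R4} {τ : R4 → ℝ} {V : ℝ} {d : Dat}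
  {E : R4 → L4}

/-- The lens in the rolling chart. -/
def K0 (W : Set R4) (τ : R4 → ℝ) (V : ℝ) (Ω : Set R4) (Φ : R4 → R4) : Set R4 :=
  {p ∈ Ω | Φ p ∈ KV W τ V}

theorem ex_psi (S : Str W g Xf τ V d c Ω Φ Ψ E) {x : R4} (h : x ∈ KV W τ V) :
    Ψ x ∈ Ω ∧ Φ (Ψ x) = x := by
  obtain ⟨p, hp, rfl⟩ := S.onto h
  rw [S.left p hp]
  exact ⟨hp, rfl⟩

theorem k0_cpt (L : Lens W g Xf τ V d) (S : Str W g Xf τ V d c Ω Φ Ψ E) :
    IsCompact (K0 W τ V Ω Φ) := by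
  have : K0 W τ V Ω Φ = Ψ '' KV W τ V := ext fun p => ⟨fun h => ⟨_, h.2, S.left p h.1⟩, by
    rintro ⟨x, h, rfl⟩
    exact ⟨(ex_psi S h).1, (ex_psi S h).2.symm ▸ h⟩⟩
  rw [this]
  exact L.cpt.image_of_continuousOn (S.sm.continuousOn.mono S.onto)

/-- The time function. -/
theorem ex_phi (L : Lens W g Xf τ V d) (S : Str W g Xf τ V d c Ω Φ Ψ E) :
    ∃ φ, Dp φ (K0 W τ V Ω Φ) Ω Φ E ∧ ∀ p ∈ K0 W τ V Ω Φ, φ p = τ (Φ p) - V := by
  have F := S.ro.rol.toFr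
  have sm : ∀ p ∈ K0 W τ V Ω Φ, ContDiffAt ℝ 1 (fun p => τ (Φ p) - V - 1) p := fun p hp =>
    (((L.tm _ hp.2).1.comp p ((Fr.atb F hp.1).of_le (by simp))).sub contDiffAt_const).sub
      contDiffAt_const
  have hO : IsOpen {p ∈ Ω | ContDiffAt ℝ 1 (fun p => τ (Φ p) - V - 1) p} :=
    isOpen_iff_mem_nhds.2 fun p hp =>
      inter_mem (F.isOpen.mem_nhds hp.1) (hp.2.eventually (by simp))
  obtain ⟨η, e1, -, e3, e4, e5⟩ := P354HU.cutoff hO (k0_cpt L S) fun p hp => ⟨hp.1, sm p hp⟩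
  have ev : ∀ p ∈ K0 W τ V Ω Φ, (fun p => η p * (τ (Φ p) - V - 1) + 1) =ᶠ[𝓝 p]
      fun p => τ (Φ p) - V := fun p hp => (e5 p hp).mono fun q hq => by simp [hq]
  have pos : ∀ p ∈ K0 W τ V Ω Φ, ∀ u, g (Φ p) (fderiv ℝ Φ p u) (fderiv ℝ Φ p u) ≤ 0 →
      g (Φ p) (fderiv ℝ Φ p u) (Xf (Φ p)) < 0 →
      0 < fderiv ℝ (fun p => η p * (τ (Φ p) - V - 1) + 1) p u := fun p hp u h1 h2 => by
    rw [(ev p hp).fderiv_eq, fderiv_sub_const, fderiv_fun_comp p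
      ((L.tm _ hp.2).1.differentiableAt one_ne_zero) ((Fr.atb F hp.1).differentiableAt (by simp))]
    exact P354XJ.tm_pos L.lor hp.2.1 (L.tm _ hp.2) (ft_ne L.lor.met hp.2.1 h2) h1 h2.le
  refine ⟨_, ⟨k0_cpt L S, fun p hp => ?_, fun p hp => hp.1, (P354HU.cut_mul hO e1 e3
    fun p hp => hp.2.contDiffWithinAt).add contDiff_const, fun p hp => S.loc p hp.1,
    fun p hp => ?_, fun p hp u h1 h2 => ?_⟩, fun p hp => (ev p hp).self_of_nhds⟩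
  · have a : η p * (τ (Φ p) - V - 1) + 1 < 0 := hp.2
    have m := (e3 (subset_tsupport _ fun z : η p = 0 => by norm_num [z] at a)).1
    refine ⟨m, F.maps m, (S.sgn p m).1.2 hp.1, ?_⟩
    by_contra! k
    nlinarith [(e4 p).1, (e4 p).2]
  · have := (S.tl p hp.1).2
    rw [← S.ro.rol.db p hp.1] at this
    exact pos p hp _ this.1.le this.2
  · refine pos p hp u ?_ ?_ <;> rw [Fr.db F L.lor.met hp.1]
    exacts [(F.on p hp.1 _ _).trans_le h1, Ro.cone L.lor S.ro hp.1 h1 h2]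

/-- The time function grows along the lines at a uniform rate. -/
theorem ex_rate (S : Str W g Xf τ V d c Ω Φ Ψ E) {φ : R4 → ℝ}
    (P : Dp φ (K0 W τ V Ω Φ) Ω Φ E) : ∃ κ > 0, ∀ p ∈ K0 W τ V Ω Φ, ∀ s ∈ Icc 0 p.1,
      (s, p.2) ∈ K0 W τ V Ω Φ ∧ φ (s, p.2) + κ * (p.1 - s) ≤ φ p := by
  obtain ⟨κ, κ0, h⟩ := P.cpt.exists_forall_le' (P354HU.cont_fd P.sm eT).continuousOn P.dt
  refine ⟨κ, κ0, fun p hp s hs => ?_⟩
  have m : ∀ s ∈ Icc 0 p.1, (s, p.2) ∈ K0 W τ V Ω Φ := fun s hs =>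
    ⟨Ro.seg S.ro hp.1 hs, S.past V le_rfl p hp.1 hp.2 s hs⟩
  have D := fun s => line_d (x := p.2) (t := s) (P.sm.differentiable one_ne_zero _)
  have := (convex_Icc 0 p.1).mul_sub_le_image_sub_of_le_deriv (C := κ)
    (fun s _ => (D s).continuousAt.continuousWithinAt)
    (fun s _ => (D s).differentiableAt.differentiableWithinAt)
    (fun s hs => (D s).deriv ▸ h _ (m s (interior_subset hs))) s hs p.1
    (right_mem_Icc.2 (hs.1.trans hs.2)) hs.2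
  exact ⟨m s hs, by linarith⟩

theorem pt_sm : ContDiff ℝ ∞ (pt 0) := by
  unfold pt
  fun_prop

/-- The maximal rolling of the target. -/
theorem ex_rol (L : Lens W g Xf τ V d) (S : Str W g Xf τ V d c Ω Φ Ψ E) {g' : Tw} {D' : Set R4}
    {X' : R4 → R4} (d' : Dat) (l : Lor g' D' X') : ∃ Ω' b' E', Ro g' D' X' d' c Ω' b' E' ∧
      ∀ p ∈ Ω, (0, p.2) ∈ D' → (∀ᶠ z in 𝓝 (xs p), IndAt g' X' (pt 0) d' z) → (0, p.2) ∈ Ω' ∧
        ∀ K ⊆ D', IsCompact K → ∀ C, (∀ s ∈ uIcc 0 p.1, (s, p.2) ∈ Ω' →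
          b' (s, p.2) ∈ K ∧ ‖E' (s, p.2)‖ ≤ C) → p ∈ Ω' := by
  let O : Set X := {y | (pt 0 y ∈ Ω ∧ pt 0 y ∈ D') ∧ ∀ᶠ z in 𝓝 y, IndAt g' X' (pt 0) d' z}
  have hO : IsOpen O := ((S.ro.rol.isOpen.inter l.isOpen).preimage pt_sm.continuous).inter
    isOpen_setOfPred_eventually_nhds
  have sl : Slc g' D' X' (pt 0) d' O := ⟨hO, pt_sm.contDiffOn, fun y h => h.1.2, fun y _ => ?_,
    fun y h => h.2.self_of_nhds⟩
  · obtain ⟨E0, a1, a2, a3⟩ := fr0 g' D' X' _ d' O l sl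
    obtain ⟨Ω', b', E', R, -, st, m, z, ex⟩ := roll g' D' Ω c 0 {x | xs (0, x) ∈ O}
      (fun x => (0, x)) E0 l.isOpen l.met S.ro.rol.isOpen S.ro.star
      (fun p hp => (Rol.cd S.ro.rol (rp_tb L.lor.isOpen L.lor.met) hp).1.contDiffWithinAt)
      contDiffOn_const (fun p _ v w => by simp [← mB_ap])
      (hO.preimage (xs_cd.continuous.comp (Continuous.prodMk_right 0))) (by fun_prop) a1
      fun x hx => ⟨hx.1.1, hx.1.2, a3 _ hx⟩
    refine ⟨Ω', b', E', ⟨R, st, fun y hy => ?_⟩, fun p hp h1 h2 => ?_⟩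
    · obtain ⟨-, e1, e2⟩ := z _ (m _ hy)
      have := a2 y (xs_pt 0 y ▸ show xs (pt 0 y) ∈ O from m _ hy)
      exact ⟨e1, (show E' (pt 0 y) = _ from e2) ▸ this.2.1,
        (show E' (pt 0 y) = _ from e2) ▸ this.2.2⟩
    · have o : xs (0, p.2) ∈ O := ⟨⟨S.ro.star p hp 0 left_mem_uIcc, h1⟩, h2⟩
      exact ⟨(z _ o).1, ex p hp o⟩
  · have := fderiv_comp y (xs_cd.differentiable (by simp) _) (pt_sm.differentiable (by simp) y)
    rw [show xs ∘ pt 0 = id from funext (xs_pt 0), fderiv_id] at this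
    exact Function.Injective.of_comp (f := fderiv ℝ xs (pt 0 y)) fun u v e =>
      (congrArg (· u) this).trans (e.trans (congrArg (· v) this).symm)

end Vale.Agent.P354UR
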