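import Vale.Agent.P354UR.Emb2

/-!
EMB: the continuity argument.
-/

set_option maxSynthPendingDepth 3

open scoped ContDiff
open Set Filter Topology

namespace Vale.Agent.P354UR

open Vale.Agent.P354n (R4 mink)
open Vale.Agent.P354R (Met)
open Vale.Agent.P354XD (tb rp_tb)
open Vale.Agent.P354I (X Dat)
open Vale.Agent.P354H (X3)
open Vale.Agent.P354XE
open Vale.Agent.P354XU (L4 Jt Fr IndAt th)
open Vale.Agent.P354YM
open Vale.Agent.P354YI (Jb Oj ex_jb)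
open Vale.Agent.P354LF (kv_mono)

variable {W Ω : Set R4} {g : Tw} {Xf c Φ Ψ b : R4 → R4} {τ : R4 → ℝ} {V : ℝ} {d : Dat}
  {E : R4 → L4} {p : R4}

theorem th_cd (F : Fr g W Ω b E) (M : Met g W) (hp : p ∈ Ω) : ContDiffAt ℝ ∞ (th b E) p :=
  ((Fr.inv F M hp).contDiffAt_map_inverse.comp p (Fr.atE F hp)).clm_comp
    (P354YI.at_fd (Fr.atb F hp))

theorem Mb.mono {N N' : ℕ} {B B' c0 c0' : ℝ} (h : Mb N B c0 g p) (a : N' ≤ N) (e : B ≤ B')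
    (f : c0' ≤ c0) : Mb N' B' c0' g p :=
  ⟨fun k hk v w => (h.1 k (hk.trans a) v w).trans (mul_le_mul_of_nonneg_right e (by positivity)),
    fun v => (h.2 v).imp fun _ k => ⟨k.1, le_trans (by gcongr) k.2⟩⟩

/-- Bounds for the reference metric. -/
theorem ref_bd (L : Lens W g Xf τ V d) : ∃ B1, ∀ p ∈ KV W τ V, Bd 2 g p B1 := by
  have r := rp_tb L.lor.isOpen L.lor.met
  have a : Oj 2 (fun j : KV W τ V => j.1) (fun _ => tb g) 1 :=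
    Oj.fix L.cpt (fun y hy => r.at hy.1) fun j => j.2
  obtain ⟨B1, -, h1⟩ := a.bd' (g := fun _ => g) fun j =>
    mem_of_superset (r.op.mem_nhds j.2.1) r.eq
  exact ⟨B1 * 1, fun p hp => h1 ⟨p, hp⟩⟩

theorem ref_pos (L : Lens W g Xf τ V d) : ∃ c1 > 0, ∀ y, pt 0 y ∈ KV W τ V →
    ∀ v : R4, v.1 = 0 → c1 * ‖v‖ ^ 2 ≤ g (pt 0 y) v v := by
  have r := rp_tb L.lor.isOpen L.lor.met
  have z : IsClosed {v : R4 | v.1 = 0} := isClosed_eq continuous_fst continuous_const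
  have k := (L.cpt.inter_right z).prod ((isCompact_sphere (0 : R4) 1).inter_right z)
  have t : ContinuousOn (fun q : R4 × R4 => tb g q.1) _ :=
    r.sm.continuousOn.comp continuousOn_fst fun q (hq : q ∈ (KV W τ V ∩ {v : R4 | v.1 = 0}) ×ˢ
      (Metric.sphere (0 : R4) 1 ∩ {v : R4 | v.1 = 0})) => hq.1.1.1
  obtain ⟨c1, c0, h⟩ := k.exists_forall_le' (a := 0)
    ((t.clm_apply continuousOn_snd).clm_apply continuousOn_snd) fun q hq => by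
      have e : pt 0 (xs q.1) = q.1 := Prod.ext (Eq.symm hq.1.2) rfl
      have := (L.sig (xs q.1) (by rw [e]; exact hq.1.1)).1.2.2 q.2
        (fun o => by simpa [o] using hq.2.1) (by rw [fderiv_fst]; exact hq.2.2)
      rwa [e, r.eq _ hq.1.1.1] at this
  refine ⟨c1, c0, fun y hy v hv => ?_⟩
  rw [r.eq _ hy.1]
  rcases eq_or_ne v 0 with rfl | v0
  · simp
  have z1 := norm_pos_iff.2 v0
  have := h (pt 0 y, ‖v‖⁻¹ • v) ⟨⟨hy, rfl⟩, by simp [norm_smul, z1.ne'], by simp [hv]⟩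
  simp only [map_smul, smul_apply, smul_eq_mul] at this
  exact (mul_le_mul_of_nonneg_right this (sq_nonneg _)).trans_eq (by field_simp)

theorem cube_dist {r : ℝ} {q : R4} (h : q ∈ Icc p (p + (r, r, r, r))) : dist p q ≤ r := by
  obtain ⟨⟨a0, a1, a2, a3⟩, b0, b1, b2, b3⟩ := h
  simp only [Prod.fst_add, Prod.snd_add] at b0 b1 b2 b3
  simp only [Prod.dist_eq, Real.dist_eq, max_le_iff, abs_le]
  refine ⟨⟨?_, ?_⟩, ⟨?_, ?_⟩, ⟨?_, ?_⟩, ?_, ?_⟩ <;> linarith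

theorem ladder {G : ℝ → Prop} {a w h : ℝ} (h0 : 0 < h) (mono : ∀ u v, u ≤ v → G v → G u)
    (b : G a) (st : ∀ v ≤ w, G v → G (v + h)) : G w := by
  have k : ∀ k : ℕ, G (min w (a + k * h)) := fun k => by
    induction k with
    | zero => exact mono _ _ (by simp) b
    | succ k ih =>
      refine mono _ _ ?_ (st _ (min_le_left _ _) ih)
      rw [← min_add_add_right]
      exact min_le_min (by linarith) (by push_cast; linarith)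
  obtain ⟨n, hn⟩ := exists_nat_ge ((w - a) / h)
  have := k n
  rwa [min_eq_left (by linarith [(div_le_iff₀ h0).1 hn])] at this

/-- **EMB.** -/
theorem emb (hC : CSL) (hI : IPL) (hJ : JET) (hN : INF) (hD : DCL) (hT : TE) : EMB := by
  intro n
  refine ⟨n + 3, fun W g Xf τ V d c Ω Φ Ψ E L S C0 C B c0 η k0 k1 hn cp ηp => ?_⟩
  obtain ⟨φ, P, eφ⟩ := ex_phi L S
  obtain ⟨κ, κ0, hκ⟩ := ex_rate S P
  have F := S.ro.rol.toFr
  obtain ⟨r, r0, hr⟩ := k0.exists_cthickening_subset_open isOpen_interior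
    fun p hp => mem_interior_iff_mem_nhds.2 (hn p hp)
  replace hr : ∀ p ∈ C0, ∀ x, dist x p ≤ r → 0 ≤ x.1 → x ∈ C := fun p hp x h =>
    interior_subset (hr (Metric.mem_cthickening_of_dist_le x p r _ hp h))
  obtain ⟨B1, h1⟩ := ref_bd L
  obtain ⟨c1, c1p, h2⟩ := ref_pos L
  obtain ⟨Bc, Bc0, hc⟩ := ex_jb (n + 2) P.cpt fun p hp =>
    (Rol.cd S.ro.rol (rp_tb L.lor.isOpen L.lor.met) hp.1).1
  obtain ⟨Bt, -, ht⟩ := ex_jb (n + 1) P.cpt fun p hp => th_cd F L.lor.met hp.1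
  obtain ⟨Bi, -, hi⟩ := ex_jb (f := fun x : X3 => ((0, x) : R4)) (n + 2)
    (P.cpt.image continuous_snd) fun _ _ => by fun_prop
  obtain ⟨BT, hBT⟩ := P.cpt.exists_bound_of_continuousOn continuousOn_fst
  obtain ⟨BC, hBC⟩ := k1.exists_bound_of_continuousOn continuousOn_id
  obtain ⟨Bφ, hφ⟩ := P.cpt.exists_bound_of_continuousOn P.sm.continuous.continuousOn
  obtain ⟨F0, hF0⟩ := hN (n + 2) B (min c0 (c1 / 2)) (by positivity)
  obtain ⟨F2, F20, hF2⟩ := frb B cp F0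
  obtain ⟨B2, b1, b2, b3, b4, b5, b6, b7⟩ : ∃ B2, B ≤ B2 ∧ Bc ≤ B2 ∧ Bi ≤ B2 ∧ BT ≤ B2 ∧ BC ≤ B2 ∧
      F0 ≤ B2 ∧ F2 ≤ B2 := ⟨max (max (max B Bc) (max Bi BT)) (max (max BC F0) F2), by simp⟩
  obtain ⟨F1, hF1⟩ := hJ (n + 1) B2 c0 cp
  obtain ⟨ε, ε0, hε⟩ := hT n W g Xf τ V d c Ω Φ Ψ E L S η ηp
  obtain ⟨ρ, ρ0, ρ1, ρ2⟩ : ∃ ρ > 0, ρ < 1 ∧ F2 * Bc * (ρ / κ) < r := by
    have : Tendsto (fun ρ : ℝ => F2 * Bc * (ρ / κ)) (𝓝 0) (𝓝 (F2 * Bc * (0 / κ))) :=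
      Continuous.tendsto (by fun_prop) _
    obtain ⟨ρ, a, b⟩ := ((((eventually_lt_nhds one_pos).and (this.eventually_lt_const
      (by simpa using r0))).filter_mono nhdsWithin_le_nhds).and
        (self_mem_nhdsWithin (s := Ioi 0))).exists
    exact ⟨ρ, b, a⟩
  obtain ⟨r2, r20, hr2⟩ := Metric.mem_uniformity_dist.1 (P.cpt.uniformContinuousAt_of_continuousAt φ
    (fun a _ => P.sm.continuous.continuousAt)
    (Metric.dist_mem_uniformity (show 0 < ρ / 4 by positivity)))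
  obtain ⟨δ1, δ10, hδ1⟩ := hI n L4 (F1 + ‖(-1 : L4 →L[ℝ] L4)‖ * Bt) (r2 / 2) (by positivity) ε ε0
  obtain ⟨δ2, δ20, hδ2⟩ := hC φ g W Ω c 0 Φ E _ L.lor.isOpen L.lor.met L.lor.vac S.ro.rol P
    (Ro.adp L.lor.met S.ro) (max B F1) c0 cp (ρ / 4) (by positivity) δ1 δ10
  obtain ⟨η', η0, hη⟩ := hD B1 c1 c1p δ2 δ20
  refine ⟨2, η', η0, fun g' D' X' d' τ' l _ hs hU hb tr => ?_⟩
  obtain ⟨Ω', b', E', R, ex⟩ := ex_rol L S d' l
  have F' := R.rol.toFr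
  have base : ∀ p ∈ K0 W τ V Ω Φ, ((0, p.2) ∈ C0 ∧ (0, p.2) ∈ C ∧ (0, p.2) ∈ Ω') ∧
      (∀ K ⊆ D', IsCompact K → ∀ C, (∀ s ∈ uIcc 0 p.1, (s, p.2) ∈ Ω' →
        b' (s, p.2) ∈ K ∧ ‖E' (s, p.2)‖ ≤ C) → p ∈ Ω') ∧ Dc g g' Φ b' E E' p.2 δ2 ∧
      Jb (n + 2) (fun x : X3 => E' (0, x)) p.2 F0 := fun p hp => by
    have p0 := (S.sgn p hp.1).1.1 hp.2.2.1
    have q := (hκ p hp 0 ⟨le_rfl, p0⟩).1
    have m : pt 0 (xs p) ∈ KV W τ V := by have := q.2; rwa [Ro.b0 S.ro q.1] at this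
    obtain ⟨a1, a2, a3⟩ := hb _ m
    have a4 := hr _ a1 _ ((dist_self _).trans_le r0.le) le_rfl
    obtain ⟨a5, a6⟩ := ex p hp.1 (hs a4) a2
    obtain ⟨a7, a8⟩ := hη g W Xf d c Ω Φ E g' D' X' d' c Ω' b' E' (xs p) L.lor S.ro l R q.1 a5
      ((L.sig _ m).2.and a2) (h1 _ m) (h2 _ m) a3
    exact ⟨⟨a1, a4, a5⟩, a6, a7, hF0 g' D' X' d' c Ω' b' E' (xs p) l R a5 a2 (Mb.mono
      ⟨(hU _ a4).1.bd, (hU _ a4).1.nd⟩ (by omega) le_rfl (min_le_left _ _)) fun v hv =>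
        le_trans (by gcongr; exact min_le_right _ _) (a8 v hv)⟩
  have fb : ∀ p ∈ K0 W τ V Ω Φ, p ∈ Ω' → (∀ u ∈ Icc 0 p.1, b' (u, p.2) ∈ C) → ‖E' p‖ ≤ F2 :=
    fun p hp m h => hF2 g' D' X' d' c Ω' b' E' τ' p l R m ((S.sgn p hp.1).1.1 hp.2.2.1)
      (fun s hs => ⟨(S.tl _ (Ro.seg S.ro hp.1 hs)).1, have u := (hU _ (h s hs)).1
        ⟨fun i hi => u.bd i (by omega), u.nd, u.sm, u.cone⟩⟩) (base p hp).2.2.2.zero
  have lv : ∀ v, ∀ p ∈ K0 W τ V Ω Φ, φ p ≤ v ↔ Φ p ∈ KV W τ (V + v) := fun v p hp => by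
    rw [eφ p hp]
    exact ⟨fun h => ⟨hp.2.1, hp.2.2.1, by linarith⟩, fun h => by linarith [h.2.2]⟩
  have step : ∀ v, v + ρ ≤ 0 → (∀ p ∈ K0 W τ V Ω Φ, φ p ≤ v → b' p ∈ C0) →
      (∀ p ∈ K0 W τ V Ω Φ, φ p ≤ v + ρ → p ∈ Ω') ∧
      Emb (KV W τ (V + (v + ρ / 2))) g Xf g' X' n η (b' ∘ Ψ) ∧
      MapsTo (b' ∘ Ψ) (KV W τ (V + (v + ρ / 2))) C0 := fun v hv G => by
    have dn : ∀ p ∈ K0 W τ V Ω Φ, φ p ≤ v + ρ → ∀ s ∈ Icc 0 p.1,
        (s, p.2) ∈ K0 W τ V Ω Φ ∧ φ (s, p.2) ≤ v + ρ := fun p hp h s hs =>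
      ⟨(hκ p hp s hs).1, by nlinarith [(hκ p hp s hs).2, hs.2]⟩
    have A : ∀ p ∈ K0 W τ V Ω Φ, φ p ≤ v + ρ → p ∈ Ω' →
        (∀ s ∈ Icc 0 p.1, b' (s, p.2) ∈ C) ∧ (0 < p.1 → 0 < (b' p).1) := fun p hp h m => by
      refine stay l R k1.isClosed hr (fun q hq => (hU q hq).2) m ((S.sgn p hp.1).1.1 hp.2.2.1)
        (fun s hs => ⟨(S.tl _ (Ro.seg S.ro hp.1 hs)).1, (hc _ (hκ p hp s hs).1).zero⟩)
        (fun s hs => fb _ (hκ p hp s hs).1 (Ro.seg R m hs)) (by positivity) ρ2 (base p hp).1.2.1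
        fun u hu => ?_
      rcases le_total u (ρ / κ) with k | k
      · exact ⟨0, ⟨le_rfl, hu.1⟩, by linarith, by
          rw [Ro.b0 R (base p hp).1.2.2]; exact (base p hp).1.1⟩
      have e : 0 < ρ / κ := by positivity
      have a := hκ p hp (u - ρ / κ) ⟨by linarith, by linarith [hu.2]⟩
      have e' : κ * (ρ / κ) = ρ := by field_simp
      exact ⟨u - ρ / κ, ⟨by linarith, by linarith⟩, by linarith,
        G _ a.1 (by nlinarith [a.2, hu.2])⟩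
    have Mx : ∀ p ∈ K0 W τ V Ω Φ, φ p ≤ v + ρ → p ∈ Ω' := fun p hp h =>
      (base p hp).2.1 C hs k1 F2 fun s hs m => by
        rw [uIcc_of_le ((S.sgn p hp.1).1.1 hp.2.2.1)] at hs
        obtain ⟨a1, a2⟩ := dn p hp h s hs
        have := (A _ a1 a2 m).1
        exact ⟨this s ⟨hs.1, le_rfl⟩, fb _ a1 m this⟩
    have mC : ∀ p ∈ K0 W τ V Ω Φ, φ p ≤ v + ρ → b' p ∈ C := fun p hp h =>
      (A p hp h (Mx p hp h)).1 _ (right_mem_Icc.2 ((S.sgn p hp.1).1.1 hp.2.2.1))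
    have jt : ∀ p ∈ K0 W τ V Ω Φ, φ p ≤ v + ρ →
        Jb (n + 2) b' p F1 ∧ Jb (n + 2) E' p F1 ∧ Jb (n + 1) (th b' E') p F1 := fun p hp h => by
      refine hF1 g' D' Ω' c b' E' p l.isOpen l.met R.rol ((hBT p hp).trans b4) (fun s hs => ?_)
        (((hi _ ⟨p, hp, rfl⟩).mono le_rfl b3).congr ((Ro.ev R (base p hp).1.2.2).mono
          fun _ => Ro.b0 R)) ((base p hp).2.2.2.mono le_rfl b6)
      rw [uIcc_of_le ((S.sgn p hp.1).1.1 hp.2.2.1)] at hs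
      obtain ⟨a1, a2⟩ := dn p hp h s hs
      have u := (hU _ (mC _ a1 a2)).1
      exact ⟨Mx _ a1 a2, (hc _ a1).mono le_rfl b2, Mb.mono ⟨u.bd, u.nd⟩ le_rfl b1 le_rfl,
        (hBC _ (mC _ a1 a2)).trans b5, (fb _ a1 (Mx _ a1 a2) (A _ a1 a2 (Mx _ a1 a2)).1).trans b7⟩
    have ln : ∀ p ∈ Ln φ (v + ρ), p ∈ K0 W τ V Ω Φ ∧ φ p ≤ v + ρ := fun p hp =>
      ⟨P.sub ⟨hp.1, hp.2.trans_le hv⟩, hp.2.le⟩
    have cl := hδ2 _ hv g' D' Ω' b' E' l.isOpen l.met l.vac R.rol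
      (fun p hp => Mx p (ln p hp).1 (ln p hp).2) (Ro.adp l.met R) (fun p hp => by
        have u := (hU _ (mC _ (ln p hp).1 (ln p hp).2)).1
        obtain ⟨a1, a2, -⟩ := jt p (ln p hp).1 (ln p hp).2
        exact ⟨Mb.mono ⟨u.bd, u.nd⟩ (by omega) (le_max_left _ _) le_rfl,
          a1.mono (by omega) (le_max_right _ _), a2.mono (by omega) (le_max_right _ _)⟩)
      fun x hx => (base _ (ln _ hx).1).2.2.1
    have le : V + (v + ρ / 2) ≤ V := by linarith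
    have em := hε _ le g' D' X' d' Ω' b' E' l R fun p hp h => by
      have k : p ∈ K0 W τ V Ω Φ := ⟨hp, kv_mono le h⟩
      have h' := (lv _ p k).2 h
      have h'' : φ p ≤ v + ρ := by linarith
      refine ⟨Mx p k h'', hδ1 _ p fun q hq => ?_, (A p k h'' (Mx p k h'')).2⟩
      have a1 := abs_lt.1 (show |φ p - φ q| < ρ / 4 from
        hr2 ((cube_dist hq).trans_lt (half_lt_self r20)) k)
      have a2 : q ∈ Ln φ (v + ρ - ρ / 4) :=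
        ⟨((S.sgn p hp).1.1 h.2.1).trans hq.1.1, by linarith⟩
      obtain ⟨a3, a4⟩ := ln q ⟨a2.1, by linarith [a2.2]⟩
      have s1 := th_cd F' l.met (Mx q a3 a4)
      have s2 := th_cd F L.lor.met a3.1
      exact ⟨s1.sub s2, ((jt q a3 a4).2.2.add ((ht q a3).clm (-1) s2) s1 s2.neg).congr
        (.of_forall fun _ => sub_eq_add_neg _ _), cl q a2⟩
    refine ⟨Mx, em, tr _ le _ em fun x hx => ?_⟩
    obtain ⟨a1, a2⟩ := ex_psi S (kv_mono le hx)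
    have k : Ψ x ∈ K0 W τ V Ω Φ := ⟨a1, a2.symm ▸ kv_mono le hx⟩
    exact mC _ k (by linarith [(lv _ _ k).2 (a2.symm ▸ hx)])
  have G := ladder (G := fun v => ∀ p ∈ K0 W τ V Ω Φ, φ p ≤ v → b' p ∈ C0) (a := -Bφ - 1)
    (w := -1 - ρ / 2) (half_pos ρ0) (fun u v e h p hp k => h p hp (k.trans e))
    (fun p hp k => by linarith [neg_le_of_abs_le (hφ p hp)]) fun v hv h p hp k => by
      simpa only [Function.comp_apply, S.left p hp.1] using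
        (step v (by linarith) h).2.2 ((lv _ p hp).1 k)
  obtain ⟨a1, a2, a3⟩ := step _ (by linarith) G
  rw [show V + (-1 - ρ / 2 + ρ / 2) = V - 1 by ring] at a2 a3
  refine ⟨_, Ω', b', E', a2, a3, R, fun p hp h => ⟨?_, ?_⟩⟩
  · have k : p ∈ K0 W τ V Ω Φ := ⟨hp, kv_mono (by linarith) h⟩
    exact a1 p k (by linarith [(lv (-1) p k).2 h])
  · filter_upwards [F.isOpen.mem_nhds hp] with q hq
    simp only [Function.comp_apply, S.left q hq]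

end Vale.Agent.P354UR
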