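import Vale.Agent.P354XU.Defs
import Vale.Agent.P354YQ.Ex

/-!
Maximal families of solutions along the lines of the first coordinate.
-/

open scoped ContDiff
open Set Filter Topology

namespace Vale.Agent.P354UR

open Vale.Agent.P354n (R4)
open Vale.Agent.P354XE (eT)
open Vale.Agent.P354H (X3)

variable {E : Type} [NormedAddCommGroup E] [NormedSpace ℝ E] {U : Set (R4 × E)} {v : R4 × E → E}

theorem mem_uI {s t : ℝ} : s ∈ uIcc 0 t ↔ ∃ l ∈ Icc (0 : ℝ) 1, l * t = s := by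
  rw [← segment_eq_uIcc, segment_eq_image]
  simp

theorem line (x : X3) (t : ℝ) : HasDerivAt (fun s : ℝ => ((s, x) : R4)) eT t :=
  (hasDerivAt_id t).prodMk (hasDerivAt_const t x)

theorem line_d {f : R4 → E} {x : X3} {t : ℝ} (h : DifferentiableAt ℝ f (t, x)) :
    HasDerivAt (fun s => f (s, x)) (fderiv ℝ f (t, x) eT) t :=
  h.hasFDerivAt.comp_hasDerivAt t (line x t)

/-- Uniqueness along a vertical segment. -/
theorem uq {Ω : Set R4} (hΩ : IsOpen Ω) {Φ Φ' : R4 → E} {p : R4}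
    (h : ∀ q ∈ Ω, DifferentiableAt ℝ Φ q ∧ fderiv ℝ Φ q eT = v (q, Φ q))
    (h' : ∀ q ∈ Ω, DifferentiableAt ℝ Φ' q ∧ fderiv ℝ Φ' q eT = v (q, Φ' q))
    (hv : ∀ q ∈ Ω, ContDiffAt ℝ 1 v (q, Φ q)) (hp : ∀ s ∈ uIcc 0 p.1, (s, p.2) ∈ Ω)
    (e : Φ (0, p.2) = Φ' (0, p.2)) : Φ p = Φ' p := by
  have k : ∀ {Φ : R4 → E}, (∀ q ∈ Ω, DifferentiableAt ℝ Φ q ∧ fderiv ℝ Φ q eT = v (q, Φ q)) →
      ∀ t ∈ uIcc 0 p.1, ∀ᶠ s in 𝓝 t,
        HasDerivAt (fun s => Φ (s, p.2)) (v ((s, p.2), Φ (s, p.2))) s := fun h t m =>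
    ((line p.2 t).continuousAt.eventually (hΩ.eventually_mem (hp t m))).mono fun s a =>
      (h _ a).2 ▸ line_d (h _ a).1
  exact (P354YQ.uniq (w := fun z => v ((z.1, p.2), z.2)) isPreconnected_uIcc left_mem_uIcc
    (fun t m => ContDiffAt.comp (g := v) _ (hv _ (hp t m)) (by fun_prop)) (k h) (k h') e _
    right_mem_uIcc).self_of_nhds

/-- A family of solutions on Ω with the initial values x0 on O. -/
structure Fam (U : Set (R4 × E)) (v : R4 × E → E) (O : Set X3) (x0 : X3 → E) (Ω : Set R4)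
    (Φ : R4 → E) : Prop where
  op : IsOpen Ω
  sm : ContDiffOn ℝ ∞ Φ Ω
  star : P354XU.Star Ω
  mem : ∀ p ∈ Ω, p.2 ∈ O ∧ (p, Φ p) ∈ U
  ode : ∀ p ∈ Ω, fderiv ℝ Φ p eT = v (p, Φ p)
  init : ∀ x, (0, x) ∈ Ω → Φ (0, x) = x0 x

variable {O : Set X3} {x0 : X3 → E} {Ω Ω' : Set R4} {Φ Φ' : R4 → E}

theorem Fam.df (h : Fam U v O x0 Ω Φ) {p : R4} (m : p ∈ Ω) : DifferentiableAt ℝ Φ p :=
  (h.sm.contDiffAt (h.op.mem_nhds m)).differentiableAt (by simp)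

theorem Fam.eq (hU : IsOpen U) (hv : ContDiffOn ℝ ∞ v U) (h : Fam U v O x0 Ω Φ)
    (h' : Fam U v O x0 Ω' Φ') : EqOn Φ Φ' (Ω ∩ Ω') := fun p m =>
  uq (h.op.inter h'.op) (fun _ a => ⟨h.df a.1, h.ode _ a.1⟩) (fun _ a => ⟨h'.df a.2, h'.ode _ a.2⟩)
    (fun _ a => (hv.contDiffAt (hU.mem_nhds (h.mem _ a.1).2)).of_le (by simp))
    (fun s a => ⟨h.star p m.1 s a, h'.star p m.2 s a⟩)
    ((h.init _ (h.star p m.1 0 left_mem_uIcc)).trans (h'.init _ (h'.star p m.2 0 left_mem_uIcc)).symm)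

variable [FiniteDimensional ℝ E]

/-- A family which only ends where it leaves the compact set K. -/
theorem ex_fam (hU : IsOpen U) (hv : ContDiffOn ℝ ∞ v U) (hO : IsOpen O) (hx : ContDiffOn ℝ ∞ x0 O)
    {K : Set (R4 × E)} (hK : IsCompact K) (hKU : K ⊆ U) : ∃ Ω Φ, Fam U v O x0 Ω Φ ∧
      ∀ p : R4, p.2 ∈ O → ((0, p.2), x0 p.2) ∈ K →
        (∀ s ∈ uIcc 0 p.1, (s, p.2) ∈ Ω → ((s, p.2), Φ (s, p.2)) ∈ K) → p ∈ Ω := by
  obtain ⟨u, N, Fl, us, n1, n2, n3, n4, fs, f0, fd⟩ := P354YQ.ex_flow eT hU hv hK hKU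
  set Φ : R4 → E := fun p => Fl (p.1, (0, p.2), x0 p.2) with hΦ
  have sm : ∀ p : R4, p.2 ∈ O → ContDiffAt ℝ ∞ Φ p := fun p m =>
    fs.contDiffAt.comp p (contDiffAt_fst.prodMk ((contDiffAt_const.prodMk contDiffAt_snd).prodMk
      ((hx.contDiffAt (hO.mem_nhds m)).comp p contDiffAt_snd)))
  have cl : ∀ x, Continuous fun s : ℝ => (((s, x) : R4), Φ (s, x)) := fun x =>
    (continuous_id.prodMk continuous_const).prodMk
      (continuous_iff_continuousAt.2 fun t => (fd t _ _).continuousAt)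
  set Ω : Set R4 := {p | p.2 ∈ O ∧ ∀ l ∈ Icc (0 : ℝ) 1, ((l * p.1, p.2), Φ (l * p.1, p.2)) ∈ N}
    with hΩ
  have op : IsOpen Ω := isOpen_iff_mem_nhds.2 fun p m => by
    refine (continuousAt_snd.eventually (hO.eventually_mem m.1)).and
      (isCompact_Icc.eventually_forall_of_forall_eventually fun l a => ?_)
    have c : ContinuousAt (fun z : R4 × ℝ => ((z.2 * z.1.1, z.1.2) : R4)) (p, l) := by fun_prop
    exact (c.prodMk (ContinuousAt.comp (g := Φ) (sm (l * p.1, p.2) m.1).continuousAt c)).eventually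
      (n1.eventually_mem (m.2 l a))
  have st : P354XU.Star Ω := fun p m s a => by
    obtain ⟨l, b, rfl⟩ := mem_uI.1 a
    exact ⟨m.1, fun k c => by
      simpa only [mul_assoc] using m.2 (k * l) ⟨mul_nonneg c.1 b.1, mul_le_one₀ c.2 b.1 b.2⟩⟩
  have mN : ∀ p ∈ Ω, (p, Φ p) ∈ N := fun p m => by simpa using m.2 1 ⟨zero_le_one, le_rfl⟩
  refine ⟨Ω, Φ, ⟨op, fun p m => (sm p m.1).contDiffWithinAt, st, fun p m => ⟨m.1, n3 (mN p m)⟩,
    fun p m => ?_, fun x _ => f0 _⟩, fun p m m0 h => ?_⟩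
  · rw [← n4 (mN p m)]
    refine (line_d ((sm p m.1).differentiableAt (by simp))).unique ?_
    simpa [eT] using fd p.1 (0, p.2) (x0 p.2)
  by_contra hp
  have cB : IsClosed {s : ℝ | ∀ l ∈ Icc (0 : ℝ) 1, ((l * s, p.2), Φ (l * s, p.2)) ∈ K} := by
    simp only [ofPred_forall]
    exact isClosed_iInter fun l => isClosed_iInter fun _ =>
      hK.isClosed.preimage ((cl p.2).comp (continuous_const.mul continuous_id))
  obtain ⟨s, a, b, c⟩ := isPreconnected_uIcc (a := 0) (b := p.1) {s | (s, p.2) ∈ Ω} _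
    (op.preimage (continuous_id.prodMk continuous_const)) cB.isOpen_compl
    (fun s _ => or_iff_not_imp_right.2 fun a => ⟨m, fun l b => n2 (not_not.1 a l b)⟩)
    ⟨0, left_mem_uIcc, m, fun l _ => n2 (by simpa [hΦ, f0] using m0)⟩
    ⟨p.1, right_mem_uIcc, fun a => hp ⟨m, fun l b => n2 (a l b)⟩⟩
  exact c fun l d => h _ (uIcc_subset_uIcc_left a (mem_uI.2 ⟨l, d, rfl⟩))
    (st _ b _ (mem_uI.2 ⟨l, d, rfl⟩))

/-- **The maximal family.** -/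
theorem ex_max (hU : IsOpen U) (hv : ContDiffOn ℝ ∞ v U) (hO : IsOpen O) (hx : ContDiffOn ℝ ∞ x0 O)
    (h0 : ∀ x ∈ O, ((0, x), x0 x) ∈ U) : ∃ Ω Φ, Fam U v O x0 Ω Φ ∧ (∀ x ∈ O, (0, x) ∈ Ω) ∧
      ∀ p : R4, p.2 ∈ O → ∀ K ⊆ U, IsCompact K →
        (∀ s ∈ uIcc 0 p.1, (s, p.2) ∈ Ω → ((s, p.2), Φ (s, p.2)) ∈ K) → p ∈ Ω := by
  classical
  set Ω : Set R4 := {p | ∃ z : Set R4 × (R4 → E), Fam U v O x0 z.1 z.2 ∧ p ∈ z.1}
  set Φ : R4 → E := fun p => if h : p ∈ Ω then h.choose.2 p else 0 with hΦ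
  have e : ∀ Ω' Φ', Fam U v O x0 Ω' Φ' → Ω' ⊆ Ω ∧ EqOn Φ Φ' Ω' := fun Ω' Φ' h =>
    ⟨fun p m => ⟨(Ω', Φ'), h, m⟩, fun p m => by
      have a : p ∈ Ω := ⟨(Ω', Φ'), h, m⟩
      simp only [hΦ, dif_pos a]
      exact a.choose_spec.1.eq hU hv h ⟨a.choose_spec.2, m⟩⟩
  have ev : ∀ {Ω' Φ' p}, Fam U v O x0 Ω' Φ' → p ∈ Ω' → Φ =ᶠ[𝓝 p] Φ' := fun h m =>
    (e _ _ h).2.eventuallyEq_of_mem (h.op.mem_nhds m)
  have z : ∀ x ∈ O, (0, x) ∈ Ω := fun x m => by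
    obtain ⟨Ω', Φ', h, k⟩ := ex_fam hU hv hO hx isCompact_singleton
      (singleton_subset_iff.2 (h0 x m))
    refine (e _ _ h).1 (k (0, x) m rfl fun s a b => ?_)
    obtain rfl : s = 0 := by simpa using a
    rw [h.init x b]
    rfl
  have F : Fam U v O x0 Ω Φ := ⟨isOpen_iff_mem_nhds.2 fun p ⟨z, h, m⟩ =>
      mem_of_superset (h.op.mem_nhds m) (e _ _ h).1,
    fun p ⟨z, h, m⟩ => ((h.sm.contDiffAt (h.op.mem_nhds m)).congr_of_eventuallyEq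
      (ev h m)).contDiffWithinAt, fun p ⟨z, h, m⟩ s a => (e _ _ h).1 (h.star p m s a),
    fun p ⟨z, h, m⟩ => (e _ _ h).2 m ▸ h.mem p m,
    fun p ⟨z, h, m⟩ => by rw [(ev h m).fderiv_eq, (e _ _ h).2 m, h.ode p m],
    fun x ⟨z, h, m⟩ => ((e _ _ h).2 m).trans (h.init x m)⟩
  refine ⟨Ω, Φ, F, z, fun p m K a b c => ?_⟩
  obtain ⟨Ω', Φ', h, k⟩ := ex_fam hU hv hO hx b a
  exact (e _ _ h).1 (k p m (F.init _ (z _ m) ▸ c 0 left_mem_uIcc (z _ m)) fun s d f =>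
    (e _ _ h).2 f ▸ c s d ((e _ _ h).1 f))

end Vale.Agent.P354UR
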