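import Vale.Agent.P354UR.EDefs

/-!
The space-time estimate below the level sets of a time function.
-/

open scoped ContDiff
open MeasureTheory Set Filter Topology

namespace Vale.Agent.P354UR

open Vale.Agent.P354n (R4)
open Vale.Agent.P354RC (bs)
open Vale.Agent.P354H (X3 e dt dx)
open Vale.Agent.P354HU

/-- The weight. -/
noncomputable def ow (v K s : ℝ) : ℝ := expNegInvGlue (v - s) * Real.exp (-K * s)

theorem ow_nonneg (v K s : ℝ) : 0 ≤ ow v K s :=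
  mul_nonneg (expNegInvGlue.nonneg _) (Real.exp_pos _).le

theorem ow_lt {v K s : ℝ} (h : ow v K s ≠ 0) : s < v := by
  by_contra! c
  exact h (by rw [ow, expNegInvGlue.zero_of_nonpos (by linarith), zero_mul])

theorem ow_cd (v K : ℝ) : ContDiff ℝ 1 (ow v K) :=
  ((expNegInvGlue.contDiff (n := 1)).comp (contDiff_const.sub contDiff_id)).mul (by fun_prop)

theorem ow_d (v K s : ℝ) : deriv (ow v K) s ≤ -K * ow v K s := by
  have a := (((expNegInvGlue.contDiff (n := 1)).differentiable one_ne_zero (v - s)).hasDerivAt.comp s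
    ((hasDerivAt_id s).const_sub v)).mul ((hasDerivAt_id s).const_mul (-K)).exp
  rw [show deriv (ow v K) s = _ from a.deriv]
  have := mul_nonneg (expNegInvGlue.monotone.deriv_nonneg (x := v - s)) (Real.exp_pos (-K * s)).le
  simp only [ow, id, Function.comp]
  linarith

variable {φ : R4 → ℝ}

/-- The weighted integrals of a current over the slices. -/
theorem cur2 {J : Fin 4 → R4 → ℝ} {O D : Set R4} {v : ℝ} (K : ℝ) (hO : IsOpen O)
    (hD : IsCompact D) (hDO : D ⊆ O) (hl : Ln φ v ⊆ D) (hφ : ContDiff ℝ 1 φ)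
    (hJ : ∀ μ, ContDiffOn ℝ 1 (J μ) O)
    (H : ∀ p ∈ Ln φ v, 0 ≤ ∑ μ, fderiv ℝ φ p (bs μ) * J μ p) :
    ∃ F : ℝ → ℝ, Differentiable ℝ F ∧ ∀ t ≥ 0, F t = ∫ x, ow v K (φ (t, x)) * J 0 (t, x) ∧
      Integrable (fun x => ow v K (φ (t, x)) * J 0 (t, x)) ∧
      ∀ u : X3 → ℝ, Integrable u → (∀ x, ow v K (φ (t, x)) * (∑ μ, fderiv ℝ (J μ) (t, x) (bs μ) -
        K * ∑ μ, fderiv ℝ φ (t, x) (bs μ) * J μ (t, x)) ≤ u x) → deriv F t ≤ ∫ x, u x := by
  obtain ⟨η, e1, e2, e3, -, e5⟩ := cutoff hO hD hDO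
  have c := fun μ => cut_mul hO e1 e3 (hJ μ)
  have cw : ContDiff ℝ 1 fun p => ow v K (φ p) := (ow_cd v K).comp hφ
  have s : ∀ μ, HasCompactSupport fun q => ow v K (φ q) * (η q * J μ q) := fun μ =>
    e2.mul_right.mul_left
  have d := deriv_int (cw.mul (c 0)) (s 0)
  refine ⟨_, fun t => (d t).differentiableAt, fun t ht => ?_⟩
  have z : ∀ x, ow v K (φ (t, x)) * (η (t, x) * J 0 (t, x)) = ow v K (φ (t, x)) * J 0 (t, x) :=
    fun x => by
      by_cases z : ow v K (φ (t, x)) = 0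
      · simp [z]
      · simp [(e5 (t, x) (hl ⟨ht, ow_lt z⟩)).self_of_nhds]
  refine ⟨by simp only [z], by simpa only [z] using int_sl (cw.mul (c 0)).continuous (s 0) t,
    fun u hu h => ?_⟩
  have i1 : ∀ j : Fin 3, Integrable fun x => dx j
      (fun q => ow v K (φ q) * (η q * J j.succ q)) (t, x) := fun j =>
    int_sl (cont_fd (cw.mul (c _)) _) ((s _).fderiv_apply ℝ _) t
  have a := integral_mono (int_sl (cont_fd (cw.mul (c 0)) (1, 0)) ((s 0).fderiv_apply ℝ _) t)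
    (hu.sub (integrable_finsetSum Finset.univ fun j _ => i1 j)) fun x => ?_
  · rw [integral_sub' hu (integrable_finsetSum _ fun j _ => i1 j),
      integral_finsetSum _ fun j _ => i1 j,
      Finset.sum_eq_zero fun j _ => int_dx (cw.mul (c _)) (s _) j t, sub_zero] at a
    rw [(d t).deriv]
    exact a
  refine le_sub_iff_add_le.2 (le_trans ?_ (h x))
  unfold dx
  beta_reduce
  set q : R4 := (t, x)
  have dw := cw.differentiable one_ne_zero q
  simp only [fun μ => fderiv_fun_mul dw ((c μ).differentiable one_ne_zero q)]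
  by_cases z : ow v K (φ q) = 0
  · have : IsLocalMin (fun p => ow v K (φ p)) q := Eventually.of_forall fun r => by
      simpa only [z] using ow_nonneg _ _ _
    simp [z, this.fderiv_eq_zero]
  have hq : q ∈ Ln φ v := ⟨ht, ow_lt z⟩
  have f1 : ∀ F : R4 → ℝ, fderiv ℝ (fun p => η p * F p) q = fderiv ℝ F q := fun F =>
    EventuallyEq.fderiv_eq (by filter_upwards [e5 q (hl hq)] with r hr using by rw [hr, one_mul])
  have f2 : fderiv ℝ (fun p => ow v K (φ p)) q = deriv (ow v K) (φ q) • fderiv ℝ φ q :=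
    (((ow_cd v K).differentiable one_ne_zero _).hasDerivAt.comp_hasFDerivAt q
      (hφ.differentiable one_ne_zero q).hasFDerivAt).fderiv
  have b := mul_le_mul_of_nonneg_right (ow_d v K (φ q)) (H q hq)
  simp only [f1, f2, (e5 q (hl hq)).self_of_nhds, one_mul, add_apply, smul_apply, smul_eq_mul,
    Fin.sum_univ_succ (n := 3), bs_succ, show bs 0 = ((1, 0) : R4) from rfl,
    Fin.sum_univ_three] at b ⊢
  linarith

variable {V : Type} [NormedAddCommGroup V] [NormedSpace ℝ V]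

/-- A symmetric operator for which φ is a time function. -/
structure HZ (φ : R4 → ℝ) (A : Fin 4 → R4 → V →L[ℝ] V →L[ℝ] ℝ) (O K : Set R4) : Prop where
  opn : IsOpen O
  cpt : IsCompact K
  sub : K ⊆ O
  len : Ln φ 0 ⊆ K
  sp : ContDiff ℝ 1 φ
  sA : ∀ μ, ContDiffOn ℝ 1 (A μ) O
  sy : ∀ μ, ∀ p ∈ K, ∀ v w, A μ p v w = A μ p w v
  pos : ∀ p ∈ K, ∀ z ≠ 0, 0 < ∑ μ, fderiv ℝ φ p (bs μ) * A μ p z z

variable {A : Fin 4 → R4 → V →L[ℝ] V →L[ℝ] ℝ} {O K : Set R4}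

theorem ln_mono {v v' : ℝ} (h : v ≤ v') : Ln φ v ⊆ Ln φ v' := fun _ a => ⟨a.1, a.2.trans_le h⟩

theorem HZ.cst [FiniteDimensional ℝ V] (h : HZ φ A O K) : ∃ c > 0, ∃ M ≥ 0, ∀ p ∈ K, ∀ z,
    c * ‖z‖ ^ 2 ≤ ∑ μ, fderiv ℝ φ p (bs μ) * A μ p z z ∧ A 0 p z z ≤ M * ‖z‖ ^ 2 ∧
      ∑ μ, fderiv ℝ (A μ) p (bs μ) z z ≤ M * ‖z‖ ^ 2 := by
  have a0 : ∀ μ, ContinuousOn (A μ) K := fun μ => (h.sA μ).continuousOn.mono h.sub
  have n0 : ∀ {f : R4 → V →L[ℝ] V →L[ℝ] ℝ}, ContinuousOn f K → ContinuousOn (fun p => ‖f p‖) K :=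
    fun hf => ContinuousOn.norm (E := V →L[ℝ] V →L[ℝ] ℝ) hf
  obtain ⟨M, hM⟩ := h.cpt.exists_bound_of_continuousOn
    (f := fun p => ‖A 0 p‖ + ∑ μ, ‖fderiv ℝ (A μ) p (bs μ)‖) ((n0 (a0 0)).fun_add
      (continuousOn_finsetSum _ fun j _ => n0 ((((h.sA j).continuousOn_fderiv_of_isOpen h.opn
        le_rfl).mono h.sub).clm_apply continuousOn_const)))
  obtain ⟨c, c0, hc⟩ := (h.cpt.prod (isCompact_sphere (0 : V) 1)).exists_forall_le'
    (f := fun q => ∑ μ, fderiv ℝ φ q.1 (bs μ) * A μ q.1 q.2 q.2) (a := 0)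
    (continuousOn_finsetSum _ fun μ _ => ((cont_fd h.sp _).comp continuous_fst).continuousOn.mul
      ((((a0 μ).comp continuousOn_fst fun q hq => hq.1).clm_apply continuousOn_snd).clm_apply
        continuousOn_snd)) fun q hq => h.pos _ hq.1 _ fun z => by simpa [z] using hq.2
  refine ⟨c, c0, |M|, abs_nonneg _, fun p hp z => ?_⟩
  have m := ((le_abs_self _).trans (hM p hp)).trans (le_abs_self M)
  have n : 0 ≤ ∑ μ, ‖fderiv ℝ (A μ) p (bs μ)‖ := Finset.sum_nonneg fun _ _ =>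
    ContinuousLinearMap.opNorm_nonneg _
  refine ⟨?_, (quad_le _ z).trans (by gcongr; linarith), ?_⟩
  · rcases eq_or_ne z 0 with rfl | z0
    · simp
    have z1 := norm_pos_iff.2 z0
    have := hc (p, ‖z‖⁻¹ • z) ⟨hp, by simp [norm_smul, z1.ne']⟩
    simp only [map_smul, smul_apply, smul_eq_mul] at this
    refine (mul_le_mul_of_nonneg_right this (sq_nonneg _)).trans_eq ?_
    rw [Finset.sum_mul]
    exact Finset.sum_congr rfl fun μ _ => by field_simp
  · refine (Finset.sum_le_sum fun μ _ => quad_le _ z).trans ?_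
    rw [← Finset.sum_mul]
    gcongr
    linarith [norm_nonneg (A 0 p)]

theorem mv3 {F : ℝ → ℝ} {a ρ T C m : ℝ} (dF : Differentiable ℝ F) (a0 : 0 ≤ a) (ρ0 : 0 ≤ ρ)
    (hT : a + ρ ≤ T) (d1 : ∀ t ≥ 0, deriv F t ≤ C) (d2 : ∀ t ∈ Icc a (a + ρ), deriv F t ≤ C - m)
    (F0 : F 0 ≤ C) (FT : F T = 0) : m * ρ ≤ C * (T + 1) := by
  have mv : ∀ a b C, (∀ t ∈ Icc a b, deriv F t ≤ C) → a ≤ b → F b - F a ≤ C * (b - a) :=
    fun a b C hC ab => (convex_Icc a b).image_sub_le_mul_sub_of_deriv_le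
      dF.continuous.continuousOn dF.differentiableOn (fun t ht => hC t (interior_subset ht)) a
      (left_mem_Icc.2 ab) b (right_mem_Icc.2 ab) ab
  have a1 := mv 0 a _ (fun t ht => d1 t ht.1) a0
  have a2 := mv _ _ _ d2 (by linarith)
  have a3 := mv (a + ρ) T _ (fun t ht => d1 t (by linarith [ht.1])) hT
  linarith

/-- The divergence of the current. -/
theorem div_eq {Z : R4 → V} {q : R4} (dA : ∀ μ, DifferentiableAt ℝ (A μ) q)
    (dZ : DifferentiableAt ℝ Z q) (sy : ∀ μ v w, A μ q v w = A μ q w v) :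
    ∑ μ, fderiv ℝ (fun p => A μ p (Z p) (Z p)) q (bs μ) =
      ∑ μ, fderiv ℝ (A μ) q (bs μ) (Z q) (Z q) + 2 * ∑ μ, A μ q (fderiv ℝ Z q (bs μ)) (Z q) := by
  rw [Finset.mul_sum, ← Finset.sum_add_distrib]
  refine Finset.sum_congr rfl fun μ _ => ?_
  rw [fderiv_clm_apply ((dA μ).clm_apply dZ) dZ, fderiv_clm_apply (dA μ) dZ]
  simp only [add_apply, ContinuousLinearMap.comp_apply, ContinuousLinearMap.flip_apply]
  rw [sy μ (Z q)]
  ring

/-- **Stability below the level sets.** -/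
theorem HZ.lin [FiniteDimensional ℝ V] (h : HZ φ A O K) (L B : ℝ) {e1 ε : ℝ} (he : 0 < e1)
    (hε : 0 < ε) : ∃ δ > 0, ∀ v ≤ 0, ∀ (Z : R4 → V) (O' : Set R4), IsOpen O' →
      Ln φ v ⊆ O' → ContDiffOn ℝ 1 Z O' → (∀ p ∈ Ln φ v,
        ∑ μ, A μ p (fderiv ℝ Z p (bs μ)) (Z p) ≤ L * ‖Z p‖ ^ 2 + δ ^ 2 ∧ ‖fderiv ℝ Z p‖ ≤ B) →
      (∀ p ∈ Ln φ v, p.1 = 0 → ‖Z p‖ ≤ δ) → ∀ p ∈ Ln φ (v - e1), ‖Z p‖ ≤ ε := by
  have := haar3
  obtain ⟨c, c0, M, M0, hc⟩ := h.cst
  obtain ⟨r, r0, hr⟩ := Metric.mem_uniformity_dist.1 (h.cpt.uniformContinuousAt_of_continuousAt φ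
    (fun a _ => h.sp.continuous.continuousAt)
    (Metric.dist_mem_uniformity (show 0 < e1 / 3 by positivity)))
  obtain ⟨T, hT⟩ := h.cpt.exists_bound_of_continuousOn continuousOn_fst
  obtain ⟨ρ, ρ0, ρ1, ρ2, ρ3⟩ : ∃ ρ > 0, ρ < r ∧ ρ ≤ ε / (2 * (|B| + 1)) ∧ ρ ≤ 1 :=
    ⟨min (r / 2) (min (ε / (2 * (|B| + 1))) 1), by positivity,
      (min_le_left _ _).trans_lt (half_lt_self r0), (min_le_right _ _).trans (min_le_left _ _),
      (min_le_right _ _).trans (min_le_right _ _)⟩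
  obtain ⟨k, k0, hk⟩ : ∃ k ≥ 0, k * c = M + 2 * |L| + 1 :=
    ⟨_, by positivity, div_mul_cancel₀ _ c0.ne'⟩
  obtain ⟨W, hW⟩ := h.cpt.exists_bound_of_continuousOn
    ((ow_cd 0 k).comp h.sp).continuous.continuousOn
  have hS := h.cpt.image continuous_snd
  obtain ⟨w, w0, hw⟩ : ∃ w > 0, w = expNegInvGlue (e1 / 3) * (ε / 2) ^ 2 :=
    ⟨_, mul_pos (expNegInvGlue.pos_of_pos (by positivity)) (by positivity), rfl⟩
  obtain ⟨m, m0, hm⟩ : ∃ m > 0, m = (volume (Metric.closedBall (0 : X3) ρ)).toReal * w :=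
    ⟨_, mul_pos (ENNReal.toReal_pos (Metric.measure_closedBall_pos _ _ ρ0).ne'
      measure_closedBall_lt_top.ne) w0, rfl⟩
  obtain ⟨N, N0, hN⟩ : ∃ N ≥ 0, N = (volume (Prod.snd '' K)).toReal * (|W| * (M + 2)) :=
    ⟨_, by positivity, rfl⟩
  obtain ⟨δ, δ0, hδ⟩ : ∃ δ > 0, N * δ ^ 2 * (|T| + 1 + 1) < m * ρ := by
    have : Tendsto (fun δ : ℝ => N * δ ^ 2 * (|T| + 1 + 1)) (𝓝 0) (𝓝 (N * 0 ^ 2 * (|T| + 1 + 1))) :=
      Continuous.tendsto (by fun_prop) _
    obtain ⟨δ, a, b⟩ := (((this.eventually_lt_const (by simpa using mul_pos m0 ρ0)).filter_mono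
      nhdsWithin_le_nhds).and (self_mem_nhdsWithin (s := Ioi 0))).exists
    exact ⟨δ, b, a⟩
  refine ⟨δ, δ0, fun v v0 Z O' o1 o2 hZ H h0 p hp => ?_⟩
  have kk : Ln φ v ⊆ K := (ln_mono v0).trans h.len
  have k1 : Ln φ (v - e1 / 3) ⊆ Ln φ v := ln_mono (by linarith)
  obtain ⟨F, dF, hF⟩ := cur2 (φ := φ) (J := fun μ p => A μ p (Z p) (Z p)) (v := v - e1 / 3)
    (D := K ∩ {p | 0 ≤ p.1 ∧ φ p ≤ v - e1 / 3}) k (h.opn.inter o1) (h.cpt.inter_right
      ((isClosed_le continuous_const continuous_fst).inter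
        (isClosed_le h.sp.continuous continuous_const)))
    (fun q a => ⟨h.sub a.1, o2 ⟨a.2.1, by linarith [a.2.2]⟩⟩)
    (fun q a => ⟨kk (k1 a), a.1, a.2.le⟩) h.sp
    (fun μ => (((h.sA μ).mono inter_subset_left).clm_apply (hZ.mono inter_subset_right)).clm_apply
      (hZ.mono inter_subset_right)) fun q a => le_trans (by positivity) (hc q (kk (k1 a)) _).1
  obtain ⟨u, hu⟩ : ∃ u : X3 → ℝ, u = indicator (Prod.snd '' K) fun _ => |W| * (M + 2) * δ ^ 2 :=
    ⟨_, rfl⟩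
  have iu : Integrable u := hu ▸ (integrable_indicator_iff hS.measurableSet).2
    (integrableOn_const hS.measure_lt_top.ne)
  have vu : ∫ x, u x = N * δ ^ 2 := by
    rw [hu, integral_indicator hS.measurableSet, setIntegral_const, hN, smul_eq_mul, Measure.real]
    ring
  have bu : ∀ t ≥ 0, ∀ x y, ((t, x) ∈ Ln φ v → y ≤ (M + 2) * δ ^ 2) →
      ow (v - e1 / 3) k (φ (t, x)) * y ≤ u x := fun t ht x y hy => by
    by_cases z : ow (v - e1 / 3) k (φ (t, x)) = 0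
    · rw [z, zero_mul, hu]
      exact indicator_nonneg (fun _ _ => by positivity) _
    have q : ((t, x) : R4) ∈ Ln φ v := k1 ⟨ht, ow_lt z⟩
    rw [hu, indicator_of_mem (show x ∈ Prod.snd '' K from ⟨_, kk q, rfl⟩), mul_assoc]
    refine (mul_le_mul_of_nonneg_left (hy q) (ow_nonneg _ _ _)).trans
      (mul_le_mul_of_nonneg_right (le_trans ?_ (((le_abs_self _).trans (hW _ (kk q))).trans
        (le_abs_self W))) (by positivity))
    exact mul_le_mul_of_nonneg_right (expNegInvGlue.monotone (by linarith)) (Real.exp_pos _).le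
  have dv : ∀ q ∈ Ln φ v, ∑ μ, fderiv ℝ (fun p => A μ p (Z p) (Z p)) q (bs μ) -
      k * ∑ μ, fderiv ℝ φ q (bs μ) * A μ q (Z q) (Z q) ≤ 2 * δ ^ 2 - ‖Z q‖ ^ 2 := fun q hq => by
    rw [div_eq (fun μ => ((h.sA μ).contDiffAt (h.opn.mem_nhds (h.sub (kk hq)))).differentiableAt
      one_ne_zero) ((hZ.contDiffAt (o1.mem_nhds (o2 hq))).differentiableAt one_ne_zero)
      fun μ => h.sy μ q (kk hq)]
    obtain ⟨a1, -, a3⟩ := hc q (kk hq) (Z q)
    have a4 := (H q hq).1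
    have a5 := mul_le_mul_of_nonneg_left a1 k0
    have a7 : L * ‖Z q‖ ^ 2 ≤ |L| * ‖Z q‖ ^ 2 := by gcongr; exact le_abs_self L
    rw [← mul_assoc, hk] at a5
    linarith
  have d1 : ∀ t ≥ 0, deriv F t ≤ N * δ ^ 2 := fun t ht => vu ▸ (hF t ht).2.2 u iu fun x =>
    bu t ht x _ fun q => (dv _ q).trans (by nlinarith [sq_nonneg ‖Z (t, x)‖, sq_nonneg δ])
  have F0 : F 0 ≤ N * δ ^ 2 := by
    rw [(hF 0 le_rfl).1, ← vu]
    refine integral_mono (hF 0 le_rfl).2.1 iu fun x => bu 0 le_rfl x _ fun q => ?_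
    have a3 : M * ‖Z (0, x)‖ ^ 2 ≤ M * δ ^ 2 := by gcongr; exact h0 _ q rfl
    linarith [(hc _ (kk q) (Z (0, x))).2.1, sq_nonneg δ]
  have FT : F (|T| + 1) = 0 := by
    rw [(hF _ (by positivity)).1]
    refine integral_eq_zero_of_ae (ae_of_all _ fun x => mul_eq_zero_of_left (by_contra fun z => ?_) _)
    have := (le_abs_self _).trans (hT _ (kk (k1 ⟨show 0 ≤ |T| + 1 by positivity, ow_lt z⟩)))
    linarith [le_abs_self T]
  by_contra! b
  have pk : p ∈ K := kk (ln_mono (by linarith) hp)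
  let Q := Icc p.1 (p.1 + ρ) ×ˢ Metric.closedBall p.2 ρ
  have dq : ∀ q ∈ Q, ‖p - q‖ ≤ ρ := fun q hq => by
    rw [← dist_eq_norm, Prod.dist_eq, dist_comm p.2]
    exact max_le (abs_le.2 ⟨by linarith [hq.1.2], by linarith [hq.1.1]⟩) hq.2
  have bl : ∀ q ∈ Q, q ∈ Ln φ (v - 2 * e1 / 3) := fun q hq => by
    have a2 := abs_lt.1 (show |φ p - φ q| < e1 / 3 from
      hr (((dist_eq_norm _ _).trans_le (dq q hq)).trans_lt ρ1) pk)
    exact ⟨hp.1.trans hq.1.1, by linarith [hp.2]⟩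
  have ml : ∀ q ∈ Q, q ∈ Ln φ v := fun q hq => ln_mono (by linarith) (bl q hq)
  have lz : ∀ q ∈ Q, ε / 2 ≤ ‖Z q‖ := fun q hq => by
    have a1 := ((convex_Icc _ _).prod (convex_closedBall p.2 ρ)
      ).norm_image_sub_le_of_norm_fderiv_le (𝕜 := ℝ) (f := Z) (C := |B| + 1) (y := p)
      (fun q hq => (hZ.contDiffAt (o1.mem_nhds (o2 (ml q hq)))).differentiableAt one_ne_zero)
      (fun q hq => ((H q (ml q hq)).2.trans (le_abs_self B)).trans (by linarith)) hq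
      ⟨⟨le_rfl, by linarith⟩, Metric.mem_closedBall_self ρ0.le⟩
    have a3 : (|B| + 1) * ‖p - q‖ ≤ ε / 2 := by
      refine (mul_le_mul_of_nonneg_left ((dq q hq).trans ρ2) (by positivity)).trans_eq ?_
      field_simp
    have := norm_sub_norm_le (Z p) (Z q)
    linarith
  have d2 : ∀ t ∈ Icc p.1 (p.1 + ρ), deriv F t ≤ N * δ ^ 2 - m := fun t ht => by
    have t0 := hp.1.trans ht.1
    have ib : Integrable (indicator (Metric.closedBall p.2 ρ) fun _ => w) :=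
      (integrable_indicator_iff measurableSet_closedBall).2
        (integrableOn_const measure_closedBall_lt_top.ne)
    refine ((hF t t0).2.2 _ (iu.sub ib) fun x => ?_).trans_eq ?_
    · show _ ≤ u x - _
      by_cases hx : x ∈ Metric.closedBall p.2 ρ
      · have q : ((t, x) : R4) ∈ Q := ⟨ht, hx⟩
        rw [indicator_of_mem hx]
        have a1 := mul_le_mul_of_nonneg_left (dv _ (ml _ q)) (ow_nonneg (v - e1 / 3) k (φ (t, x)))
        have a2 := bu t t0 x (2 * δ ^ 2) fun _ => by nlinarith [sq_nonneg δ]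
        have a3 : w ≤ ow (v - e1 / 3) k (φ (t, x)) * ‖Z (t, x)‖ ^ 2 := by
          rw [hw]
          refine mul_le_mul (le_trans (expNegInvGlue.monotone (by linarith [(bl _ q).2]))
            (le_mul_of_one_le_right (expNegInvGlue.nonneg _) (Real.one_le_exp ?_)))
            (by gcongr; exact lz _ q) (by positivity) (ow_nonneg _ _ _)
          nlinarith [(ml _ q).2]
        linarith
      · rw [indicator_of_notMem hx, sub_zero]
        exact bu t t0 x _ fun q => (dv _ q).trans (by nlinarith [sq_nonneg ‖Z (t, x)‖, sq_nonneg δ])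
    · rw [integral_sub' iu ib, vu, integral_indicator measurableSet_closedBall, setIntegral_const,
        smul_eq_mul, Measure.real, Measure.addHaar_closedBall_center, hm]
  have tp := ((le_abs_self _).trans (hT p pk)).trans (le_abs_self T)
  exact (mv3 dF hp.1 ρ0.le (by linarith) d1 d2 F0 FT).not_gt hδ

end Vale.Agent.P354UR
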